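import Mathlib

/-!
# The concrete code: words `E u`, bundles `Z u`, pinning, and the derivation rule

`J` is an additive group of exponent two with an action of `Γ`; a site is a pair `(x, v)`.
An `M`-word is a function `X : J × Γ → B → F` satisfying the two local checks at every site
(one-view form of a bipartite Tanner code on the Cayley graph of `J ⋊ Γ` with right
multiplications by the labels `b`).
-/

set_option autoImplicit false

namespace Vale.Agent.P330.H155

open Finset

/-- Data of the code. -/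
structure Cd (J Γ B F : Type*) [AddCommGroup J] [Group Γ] [DistribMulAction Γ J]
    [Field F] where
  /-- the `J`-part of the label -/
  bet : B → J
  /-- the `Γ`-part of the label -/
  eta : B → Γ
  /-- the left local code -/
  C0 : Submodule F (B → F)
  /-- the right local code -/
  C1 : Submodule F (B → F)
  /-- information labels -/
  info : Set B
  /-- a distinguished information label -/
  b0 : B

section

variable {J Γ B F : Type*} [AddCommGroup J] [Group Γ] [DistribMulAction Γ J] [Field F]

/-- left translation by `(z, g)` -/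
def lt (z : J) (g : Γ) (h : J × Γ) : J × Γ := (z + g • h.1, g * h.2)

/-- the inverse of `(x, t)` in an exponent two situation -/
def inv2 (h : J × Γ) : J × Γ := (h.2⁻¹ • h.1, h.2⁻¹)

namespace Cd

variable (S : Cd J Γ B F)

/-- right translation by the inverse of the label `b` -/
def nb (b : B) (h : J × Γ) : J × Γ :=
  (h.1 + (h.2 * (S.eta b)⁻¹) • S.bet b, h.2 * (S.eta b)⁻¹)

theorem nb_lt (b : B) (z : J) (g : Γ) (h : J × Γ) :
    S.nb b (lt z g h) = lt z g (S.nb b h) := by
  simp [nb, lt, mul_assoc, mul_smul, smul_add, add_assoc]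

/-- The words of the code. -/
def IsM (X : J × Γ → B → F) : Prop :=
  (∀ h, X h ∈ S.C0) ∧ ∀ h, (fun b => X (S.nb b h) b) ∈ S.C1

variable {S}

theorem IsM.zero : S.IsM (0 : J × Γ → B → F) :=
  ⟨fun _ => S.C0.zero_mem, fun _ => S.C1.zero_mem⟩

theorem IsM.add {X Y : J × Γ → B → F} (hX : S.IsM X) (hY : S.IsM Y) : S.IsM (X + Y) :=
  ⟨fun h => S.C0.add_mem (hX.1 h) (hY.1 h), fun h => S.C1.add_mem (hX.2 h) (hY.2 h)⟩

theorem IsM.smul {X : J × Γ → B → F} (c : F) (hX : S.IsM X) : S.IsM (c • X) :=
  ⟨fun h => S.C0.smul_mem c (hX.1 h), fun h => S.C1.smul_mem c (hX.2 h)⟩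

theorem IsM.neg {X : J × Γ → B → F} (hX : S.IsM X) : S.IsM (-X) := by
  have := hX.smul (-1)
  simpa using this

theorem IsM.sub {X Y : J × Γ → B → F} (hX : S.IsM X) (hY : S.IsM Y) : S.IsM (X - Y) := by
  rw [sub_eq_add_neg]; exact hX.add hY.neg

theorem IsM.sum {ι : Type*} (s : Finset ι) {X : ι → J × Γ → B → F}
    (hX : ∀ i ∈ s, S.IsM (X i)) : S.IsM (∑ i ∈ s, X i) := by
  classical
  induction s using Finset.induction_on with
  | empty => simpa using IsM.zero
  | insert a s ha ih =>
    rw [Finset.sum_insert ha]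
    exact (hX a (Finset.mem_insert_self a s)).add
      (ih fun i hi => hX i (Finset.mem_insert_of_mem hi))

/-- `M` is invariant under left translations. -/
theorem IsM.lt {X : J × Γ → B → F} (hX : S.IsM X) (z : J) (g : Γ) :
    S.IsM (fun h => X (H155.lt z g h)) := by
  refine ⟨fun h => hX.1 _, fun h => ?_⟩
  have := hX.2 (H155.lt z g h)
  simpa [nb_lt] using this

end Cd

/-- The algebraic hypothesis on the code (freeness of `M` with the information labels as
basis), together with the exponent two condition. -/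
structure Cd.Good (S : Cd J Γ B F) : Prop where
  b0_mem : S.b0 ∈ S.info
  two : ∀ x : J, x + x = 0
  uniq : ∀ X : J × Γ → B → F, S.IsM X → (∀ h, ∀ b ∈ S.info, X h b = 0) → X = 0
  ex : ∀ u : J → F, ∃ X : J × Γ → B → F, S.IsM X ∧ ∀ h, ∀ b ∈ S.info, X h b = u h.1

namespace Cd

variable (S : Cd J Γ B F)

/-- The word with information content `u`. -/
noncomputable def E (u : J → F) : J × Γ → B → F := by
  classical
  exact if h : ∃ X : J × Γ → B → F, S.IsM X ∧ ∀ h, ∀ b ∈ S.info, X h b = u h.1
    then h.choose else 0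

variable {S} (hS : S.Good)

include hS

theorem E_spec (u : J → F) : S.IsM (S.E u) ∧ ∀ h, ∀ b ∈ S.info, S.E u h b = u h.1 := by
  classical
  have h := hS.ex u
  have : S.E u = h.choose := by
    unfold E
    rw [dif_pos h]
  rw [this]
  exact h.choose_spec

theorem E_isM (u : J → F) : S.IsM (S.E u) := (E_spec hS u).1

theorem E_info (u : J → F) (h : J × Γ) {b : B} (hb : b ∈ S.info) : S.E u h b = u h.1 :=
  (E_spec hS u).2 h b hb

theorem E_b0 (u : J → F) (h : J × Γ) : S.E u h S.b0 = u h.1 := E_info hS u h hS.b0_mem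

theorem eq_E {X : J × Γ → B → F} {u : J → F} (hX : S.IsM X)
    (hu : ∀ h, ∀ b ∈ S.info, X h b = u h.1) : X = S.E u := by
  have h0 : X - S.E u = 0 := by
    apply hS.uniq _ (hX.sub (E_isM hS u))
    intro h b hb
    simp [hu h b hb, E_info hS u h hb]
  exact sub_eq_zero.mp h0

theorem E_inj {u w : J → F} (h : S.E u = S.E w) : u = w := by
  funext x
  have := congrFun (congrFun h (x, 1)) S.b0
  rwa [E_b0 hS, E_b0 hS] at this

theorem E_add (u w : J → F) : S.E (u + w) = S.E u + S.E w := by
  symm
  apply eq_E hS ((E_isM hS u).add (E_isM hS w))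
  intro h b hb
  simp [E_info hS _ h hb]

theorem E_smul (c : F) (u : J → F) : S.E (c • u) = c • S.E u := by
  symm
  apply eq_E hS ((E_isM hS u).smul c)
  intro h b hb
  simp [E_info hS _ h hb]

theorem E_zero : S.E (0 : J → F) = 0 := by
  have := E_smul hS 0 (0 : J → F)
  simpa using this

theorem E_sum {ι : Type*} (s : Finset ι) (u : ι → J → F) :
    S.E (∑ i ∈ s, u i) = ∑ i ∈ s, S.E (u i) := by
  classical
  induction s using Finset.induction_on with
  | empty => simpa using E_zero hS
  | insert a s ha ih => rw [Finset.sum_insert ha, Finset.sum_insert ha, E_add hS, ih]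

/-- Left translations of `E`-words are `E`-words. -/
theorem E_lt (u : J → F) (z : J) (g : Γ) :
    S.E (fun x => u (z + g • x)) = fun h => S.E u (lt z g h) := by
  symm
  apply eq_E hS ((E_isM hS u).lt z g)
  intro h b hb
  simp [E_info hS _ _ hb, lt]

theorem E_lt_apply (u : J → F) (z : J) (g : Γ) (h : J × Γ) :
    S.E (fun x => u (z + g • x)) h = S.E u (lt z g h) :=
  congrFun (E_lt hS u z g) h

theorem E_tr (u : J → F) (z : J) (h : J × Γ) :
    S.E (fun x => u (x + z)) h = S.E u (h.1 + z, h.2) := by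
  have := E_lt_apply hS u z 1 h
  simpa [lt, add_comm] using this

theorem E_gm (u : J → F) (g : Γ) (h : J × Γ) :
    S.E (fun x => u (g • x)) h = S.E u (g • h.1, g * h.2) := by
  have := E_lt_apply hS u 0 g h
  simpa [lt] using this

end Cd

end

/-! ### Convolution -/

section Conv

variable {J F : Type*} [AddCommGroup J] [Fintype J] [Field F]

/-- convolution of two functions on `J` -/
def conv (u w : J → F) (x : J) : F := ∑ z : J, u z * w (x - z)

theorem conv_comm (u w : J → F) : conv u w = conv w u := by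
  funext x
  unfold conv
  rw [← Equiv.sum_comp (Equiv.subLeft x)]
  refine Finset.sum_congr rfl fun z _ => ?_
  simp [mul_comm]

theorem conv_assoc (u w y : J → F) : conv (conv u w) y = conv u (conv w y) := by
  funext x
  unfold conv
  simp_rw [Finset.sum_mul, Finset.mul_sum]
  rw [Finset.sum_comm]
  refine Finset.sum_congr rfl fun z _ => ?_
  rw [← Equiv.sum_comp (Equiv.addRight z)]
  refine Finset.sum_congr rfl fun t _ => ?_
  simp only [Equiv.coe_addRight]
  rw [show t + z - z = t by abel, show x - (t + z) = x - z - t by abel]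
  ring

theorem conv_left_comm (u w y : J → F) : conv u (conv w y) = conv w (conv u y) := by
  rw [← conv_assoc, conv_comm u w, conv_assoc]

theorem conv_add (u w y : J → F) : conv u (w + y) = conv u w + conv u y := by
  funext x; simp [conv, mul_add, Finset.sum_add_distrib]

theorem add_conv (u w y : J → F) : conv (u + w) y = conv u y + conv w y := by
  funext x; simp [conv, add_mul, Finset.sum_add_distrib]

theorem conv_smul (c : F) (u w : J → F) : conv u (c • w) = c • conv u w := by
  funext x; simp only [conv, Pi.smul_apply, smul_eq_mul, Finset.mul_sum]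
  exact Finset.sum_congr rfl fun z _ => by ring

theorem smul_conv (c : F) (u w : J → F) : conv (c • u) w = c • conv u w := by
  rw [conv_comm, conv_smul, conv_comm]

/-- the unit of convolution -/
noncomputable def dlt : J → F := by
  classical exact fun x => if x = 0 then 1 else 0

omit [Fintype J] in
theorem dlt_apply_zero : (dlt : J → F) 0 = 1 := by simp [dlt]

omit [Fintype J] in
theorem dlt_apply_ne {x : J} (hx : x ≠ 0) : (dlt : J → F) x = 0 := by simp [dlt, hx]

theorem conv_dlt (u : J → F) : conv u dlt = u := by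
  classical
  funext x
  unfold conv
  rw [Finset.sum_eq_single x]
  · simp [dlt]
  · intro z _ hz
    rw [dlt_apply_ne (sub_ne_zero.mpr (Ne.symm hz))]; simp
  · intro h; exact absurd (Finset.mem_univ x) h

theorem dlt_conv (u : J → F) : conv dlt u = u := by rw [conv_comm, conv_dlt]

/-- Multiplication by an additive function is a derivation of the convolution algebra. -/
theorem conv_deriv (φ : J → F) (hφ : ∀ x y, φ (x + y) = φ x + φ y) (u w : J → F) (x : J) :
    φ x * conv u w x = conv (fun z => φ z * u z) w x + conv u (fun z => φ z * w z) x := by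
  unfold conv
  rw [Finset.mul_sum, ← Finset.sum_add_distrib]
  refine Finset.sum_congr rfl fun z _ => ?_
  have : φ x = φ z + φ (x - z) := by rw [← hφ]; congr 1; abel
  rw [this]; ring

end Conv

/-! ### The fixed elements `G` -/

section

variable {J Γ B F : Type*} [AddCommGroup J] [Fintype J] [Group Γ] [DistribMulAction Γ J]
  [Field F]

namespace Cd

variable (S : Cd J Γ B F)

/-- The elements `G_{(v,b)}` of the group algebra. -/
noncomputable def G (v : Γ) (b : B) (x : J) : F := S.E dlt (x, v) b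

variable {S} (hS : S.Good)

include hS

omit [Fintype J] in
theorem G_info (v : Γ) {b : B} (hb : b ∈ S.info) : S.G v b = dlt := by
  funext x; exact E_info hS _ _ hb

omit [Fintype J] in
theorem G_b0 (v : Γ) : S.G v S.b0 = dlt := G_info hS v hS.b0_mem

/-- `E u` is the product of `u` with the fixed word. -/
theorem E_eq_conv (u : J → F) (x : J) (v : Γ) (b : B) :
    S.E u (x, v) b = conv u (S.G v b) x := by
  classical
  have hsub : ∀ a c : J, a - c = a + c := fun a c => by
    rw [sub_eq_add_neg]; congr 1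
    exact neg_eq_of_add_eq_zero_left (hS.two c)
  have h1 : u = ∑ z : J, u z • (fun y : J => (dlt : J → F) (y + z)) := by
    funext y
    simp only [Finset.sum_apply, Pi.smul_apply, smul_eq_mul]
    rw [Finset.sum_eq_single y]
    · rw [hS.two y, dlt_apply_zero, mul_one]
    · intro z _ hz
      rw [dlt_apply_ne, mul_zero]
      rw [← hsub]
      exact sub_ne_zero.mpr (Ne.symm hz)
    · intro h; exact absurd (Finset.mem_univ y) h
  conv_lhs => rw [h1]
  rw [E_sum hS]
  unfold conv
  simp only [Finset.sum_apply]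
  refine Finset.sum_congr rfl fun z _ => ?_
  rw [E_smul hS]
  simp only [Pi.smul_apply, smul_eq_mul]
  rw [E_tr hS]
  unfold G
  rw [hsub]

omit [Fintype J] in
/-- equivariance of the fixed word -/
theorem G_equivariant (g v : Γ) (b : B) (x : J) : S.G (g * v) b (g • x) = S.G v b x := by
  have h1 : (fun y : J => (dlt : J → F) (g • y)) = dlt := by
    funext y
    by_cases hy : y = 0
    · subst hy; simp
    · rw [dlt_apply_ne hy, dlt_apply_ne]
      intro h
      exact hy ((smul_eq_zero_iff_eq g).mp h)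
  have h2 := E_gm hS (dlt : J → F) g (x, v)
  rw [h1] at h2
  unfold G
  rw [h2]

/-- `E` is linear over the group algebra. -/
theorem E_conv (u w : J → F) (x : J) (v : Γ) (b : B) :
    S.E (conv u w) (x, v) b = conv u (conv w (S.G v b)) x := by
  rw [E_eq_conv hS, conv_assoc]

/-- **The derivation rule** (T2). -/
theorem E_deriv (φ : J → F) (hφ : ∀ x y, φ (x + y) = φ x + φ y) (u : J → F) (x : J) (v : Γ)
    (b : B) :
    S.E (fun z => φ z * u z) (x, v) b =
      φ x * S.E u (x, v) b - S.E (conv u (fun z => φ z * S.G v b z)) (x, v) S.b0 := by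
  rw [E_b0 hS, E_eq_conv hS, E_eq_conv hS, conv_deriv φ hφ]
  ring

/-! ### The bundle -/

variable (S) in
omit hS in
/-- The bundled two-dimensional word of a content `u`. -/
noncomputable def Z (u : J → F) (h : J × Γ) (γ : Γ) (b' b : B) : F :=
  S.E (conv u (S.G γ b')) (lt 0 γ h) b

theorem Z_eq (u : J → F) (h : J × Γ) (γ : Γ) (b' b : B) :
    S.Z u h γ b' b = conv u (conv (S.G γ b') (S.G (γ * h.2) b)) (γ • h.1) := by
  unfold Z
  rw [show lt (0 : J) γ h = (γ • h.1, γ * h.2) by simp [lt], E_conv hS]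

/-- every register of the bundle is an `E`-word -/
theorem Z_eq_E (u : J → F) (h : J × Γ) (γ : Γ) (b' : B) :
    S.Z u h γ b' = S.E (fun x => conv u (S.G γ b') (γ • x)) h := by
  funext b
  rw [E_gm hS]
  simp [Z, lt]

/-- the content of the register `(γ, b')` of the bundle -/
theorem Z_eq_E' (u : J → F) (h : J × Γ) (γ : Γ) (b' : B) :
    S.Z u h γ b' = S.E (conv (fun x => u (γ • x)) (S.G 1 b')) h := by
  rw [Z_eq_E hS]
  congr 1
  funext x
  unfold conv
  rw [← Equiv.sum_comp (MulAction.toPerm γ)]
  refine Finset.sum_congr rfl fun z _ => ?_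
  simp only [MulAction.toPerm_apply]
  rw [← smul_sub]
  congr 1
  have := G_equivariant hS γ 1 b' (x - z)
  rwa [mul_one] at this

theorem Z_b0 (u : J → F) (h : J × Γ) : S.Z u h 1 S.b0 = S.E u h := by
  rw [Z_eq_E hS]
  congr 1
  funext x
  rw [G_b0 hS, conv_dlt]; simp

theorem Z_D1 (u : J → F) (h : J × Γ) (γ : Γ) (b' : B) : S.Z u h γ b' ∈ S.C0 := by
  rw [Z_eq_E hS]; exact (E_isM hS _).1 h

theorem Z_D2 (u : J → F) (h : J × Γ) (γ : Γ) (b' : B) :
    (fun b => S.Z u (S.nb b h) γ b' b) ∈ S.C1 := by
  simp_rw [Z_eq_E hS]; exact (E_isM hS _).2 h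

/-- symmetry under the exchange of the two factors -/
theorem Z_S (u : J → F) (h : J × Γ) (γ : Γ) (b' b : B) :
    S.Z u h γ b' b = S.Z u (inv2 h) (γ * h.2) b b' := by
  rw [Z_eq hS, Z_eq hS]
  simp only [inv2, mul_assoc, mul_inv_cancel, mul_one, mul_smul, smul_inv_smul]
  rw [conv_comm (S.G γ b')]

/-- the word obtained from the first direction -/
theorem Z_swap (u : J → F) (x : J) (v w : Γ) (b' b : B) :
    S.Z u (w⁻¹ • x, w⁻¹ * v) w b' b = S.E (conv u (S.G v b)) (x, w) b' := by
  rw [Z_eq hS, E_conv hS]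
  simp only [smul_inv_smul, mul_inv_cancel_left]
  rw [conv_comm (S.G w b')]

theorem Z_swap' (u : J → F) (h : J × Γ) (w : Γ) (b' b : B) :
    S.Z u h w b' b = S.E (conv u (S.G (w * h.2) b)) (w • h.1, w) b' := by
  have := Z_swap hS u (w • h.1) (w * h.2) w b' b
  simpa using this

theorem Z_D3 (u : J → F) (h : J × Γ) (γ : Γ) (b : B) :
    (fun b' => S.Z u h γ b' b) ∈ S.C0 := by
  simp_rw [Z_swap' hS]
  exact (E_isM hS _).1 _

theorem Z_D4 (u : J → F) (h : J × Γ) (γ : Γ) (b : B) :
    (fun b' => S.Z u (lt (S.bet b') (S.eta b') h) (γ * (S.eta b')⁻¹) b' b) ∈ S.C1 := by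
  have := (E_isM hS (conv u (S.G (γ * h.2) b))).2 (γ • h.1, γ)
  convert this using 1
  funext b'
  rw [Z_swap' hS]
  have h1 : γ * (S.eta b')⁻¹ * (lt (S.bet b') (S.eta b') h).2 = γ * h.2 := by
    simp [lt, mul_assoc]
  have h2 : (γ * (S.eta b')⁻¹) • (lt (S.bet b') (S.eta b') h).1 =
      γ • h.1 + (γ * (S.eta b')⁻¹) • S.bet b' := by
    simp only [lt, smul_add, smul_smul]
    rw [add_comm]
    simp [mul_assoc]
  rw [h1, h2]
  rfl

theorem Z_U1 (u : J → F) (h : J × Γ) (γ : Γ) {b' : B} (hb : b' ∈ S.info) :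
    S.Z u h γ b' = S.Z u h γ S.b0 := by
  rw [Z_eq_E hS, Z_eq_E hS, G_info hS γ hb, G_b0 hS]

theorem Z_U2 (u : J → F) (h : J × Γ) (γ g : Γ) :
    S.Z u h (γ * g) S.b0 = S.Z u (lt 0 g h) γ S.b0 := by
  funext b
  unfold Z
  rw [G_b0 hS, G_b0 hS]
  congr 1
  simp [lt, mul_smul, mul_assoc]

theorem Z_inj {u w : J → F} (h : S.Z u = S.Z w) : u = w := by
  apply E_inj hS
  funext y
  rw [← Z_b0 hS, ← Z_b0 hS, h]

/-- **Pinning.** The checks in the first direction, the symmetry, the equality of the
information rows and the generator links force a word to be the bundle of a content. -/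
theorem pin (T : Set Γ) (hT : Subgroup.closure T = ⊤) (hTi : ∀ g ∈ T, g⁻¹ ∈ T)
    (W : J × Γ → Γ → B → B → F)
    (h3 : ∀ h γ b, (fun b' => W h γ b' b) ∈ S.C0)
    (h4 : ∀ h γ b, (fun b' => W (lt (S.bet b') (S.eta b') h) (γ * (S.eta b')⁻¹) b' b) ∈ S.C1)
    (hs : ∀ h γ b' b, W h γ b' b = W (inv2 h) (γ * h.2) b b')
    (hu1 : ∀ h γ, ∀ b' ∈ S.info, W h γ b' = W h γ S.b0)
    (hu2 : ∀ h γ, ∀ g ∈ T, W h (γ * g) S.b0 = W (lt 0 g h) γ S.b0) :
    ∃ u : J → F, W = S.Z u := by
  -- the generator links extend to the whole group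
  have hall : ∀ g : Γ, ∀ h γ, W h (γ * g) S.b0 = W (lt 0 g h) γ S.b0 := by
    intro g
    have hg : g ∈ Subgroup.closure T := by rw [hT]; trivial
    have hcl : (Subgroup.closure T : Subgroup Γ).carrier = Submonoid.closure T := by
      have h1 : T⁻¹ ⊆ T := by
        intro y hy
        have := hTi _ (Set.mem_inv.mp hy)
        simpa using this
      have h2 : T ∪ T⁻¹ = T := Set.union_eq_left.mpr h1
      have h3 := Subgroup.closure_toSubmonoid T
      rw [h2] at h3
      rw [← h3]; rfl
    have hg' : g ∈ Submonoid.closure T := by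
      have : g ∈ (Subgroup.closure T : Subgroup Γ).carrier := hg
      rw [hcl] at this; exact this
    refine Submonoid.closure_induction (motive := fun g _ => ∀ h γ,
      W h (γ * g) S.b0 = W (lt 0 g h) γ S.b0) ?_ ?_ ?_ hg'
    · intro y hy h γ; exact hu2 h γ y hy
    · intro h γ; simp [lt]
    · intro y z _ _ hy hz h γ
      rw [← mul_assoc, hz, hy]
      simp [lt, mul_smul, mul_assoc]
  -- the words in the first direction
  have hE : ∀ (v : Γ) (b : B), (fun (y : J × Γ) (b' : B) =>
      W (y.2⁻¹ • y.1, y.2⁻¹ * v) y.2 b' b) = S.E (fun x => W (x, v) 1 S.b0 b) := by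
    intro v b
    apply eq_E hS
    · refine ⟨fun y => h3 _ _ _, fun y => ?_⟩
      have := h4 (y.2⁻¹ • y.1, y.2⁻¹ * v) y.2 b
      convert this using 1
      funext b'
      simp [nb, lt, mul_smul, smul_add, mul_assoc, add_comm]
    · intro y b' hb'
      have h1 := congrFun (hu1 (y.2⁻¹ • y.1, y.2⁻¹ * v) y.2 b' hb') b
      have h2 := congrFun (hall y.2 (y.2⁻¹ • y.1, y.2⁻¹ * v) 1) b
      simp only [one_mul] at h2
      rw [h1, h2]
      simp [lt]
  have hW : ∀ (h : J × Γ) (γ : Γ) (b' b : B),
      W h γ b' b = S.E (fun x => W (x, γ * h.2) 1 S.b0 b) (γ • h.1, γ) b' := by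
    intro h γ b' b
    have := congrFun (congrFun (hE (γ * h.2) b) (γ • h.1, γ)) b'
    simpa using this
  refine ⟨fun x => W (x, 1) 1 S.b0 S.b0, ?_⟩
  have hP : ∀ (x : J) (v : Γ) (b : B), W (x, v) 1 S.b0 b =
      S.E (fun x => W (x, 1) 1 S.b0 S.b0) (x, v) b := by
    intro x v b
    rw [hs, hW]
    simp [inv2]
  funext h γ b' b
  rw [hW, Z_swap' hS]
  congr 2
  funext x
  rw [hP, E_eq_conv hS]

end Cd

end

end Vale.Agent.P330.H155
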