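import Vale.Agent.P330.H155.Prog

/-!
# Content programs over `V2 κ` and over `J`

For an additive equivalence `ψ : J ≃+ V2 κ`, the contents `hval` of a program over `J` are the
contents of `H16.run` over `V2 κ`, transported along `ψ`.
-/

set_option autoImplicit false

namespace Vale.Agent.P330.H155

open Finset H16

section

variable {V : Type*}

theorem runL_congr (base : List V) (f f' : ℕ → List V → V) (k : ℕ)
    (h : ∀ m < k, ∀ us, f m us = f' m us) : runL base f k = runL base f' k := by
  induction k with
  | zero => rfl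
  | succ k ih =>
    rw [runL, runL, ih fun m hm => h m (by omega), h k (by omega)]

end

section

variable {J Γ iJ iG : Type*} {F : Type} [AddCommGroup J] [Fintype J] [Field F] {κ : ℕ}
  (pub : ℕ → Ct κ F)

theorem run_eq_runL (l : List (Ins F)) (rs : List (Ct κ F)) :
    run pub l rs = runL rs (fun k us => (l.getD k (.lin [])).ev pub us) l.length := by
  induction l using List.reverseRecOn with
  | nil => rfl
  | append_singleton l i ih =>
    rw [run_append, ih]
    simp only [run, List.length_append, List.length_singleton, runL]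
    have h1 : runL rs (fun k us => ((l ++ [i]).getD k (.lin [])).ev pub us) l.length =
        runL rs (fun k us => (l.getD k (.lin [])).ev pub us) l.length := by
      apply runL_congr
      intro m hm us
      rw [List.getD_append _ _ _ _ hm]
    rw [h1, List.getD_append_right _ _ _ _ le_rfl]
    simp

theorem runOK_getD {l : List (Ins F)} {rs : List (Ct κ F)} (h : runOK pub l rs) {k c i : ℕ}
    (hk : k < l.length) (hi : l.getD k (.lin []) = .smul c i) :
    c < rs.length + k ∧ ∃ a, (run pub l rs).getD c 0 = fun _ => a := by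
  induction l generalizing rs k with
  | nil => simp at hk
  | cons j l ih =>
    cases k with
    | zero =>
      simp only [List.getD_cons_zero] at hi
      subst hi
      obtain ⟨⟨-, a, ha⟩, -⟩ := h
      refine ⟨by simpa using ha.lt, a, ?_⟩
      obtain ⟨ex, hex, -⟩ := run_ext pub l (rs ++ [(Ins.smul c i).ev pub rs])
      rw [run, hex]
      exact (ha.append.append).getD
    | succ k =>
      simp only [List.getD_cons_succ] at hi
      obtain ⟨h1, a, h2⟩ := ih h.2 (by simpa using hk) hi
      refine ⟨by simp only [List.length_append, List.length_singleton] at h1; omega, a, ?_⟩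
      simpa [run] using h2

variable (ψ : J ≃+ V2 κ) (g : Gen J Γ F iJ iG)

/-- The public data over `J` are those over `V2 κ`. -/
structure Gen.Via : Prop where
  eb : ∀ j < g.nE, g.eb j = ψ.symm (e κ j)
  phi : ∀ j < g.nP, ∀ x, g.phi j x = bx j (ψ x)
  pubc : ∀ p x, g.pubc p x = pub p (ψ x)

variable {pub ψ g}

theorem ev_via (hg : g.Via pub ψ) (us : ℕ → J → F) (rs : List (Ct κ F))
    (h : ∀ i y, us i (ψ.symm y) = rs.getD i 0 y) (i : Ins F) (hi : InsOK g i) (y : V2 κ) :
    heval g us i (ψ.symm y) = i.ev pub rs y := by
  cases i with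
  | lin l =>
    simp only [heval, Ins.ev, lcomb]
    induction l with
    | nil => rfl
    | cons q l ih =>
      simp only [List.map_cons, List.sum_cons, Pi.add_apply, Pi.smul_apply, smul_eq_mul, linV, h]
      rw [ih trivial]
  | tr j i =>
    simp only [heval, Ins.ev, H16.tr, hg.eb j hi]
    rw [← map_add, h]
  | mx j i => simp only [heval, Ins.ev, hg.phi j hi, AddEquiv.apply_symm_apply, h]
  | pub p => simp only [heval, Ins.ev, hg.pubc, AddEquiv.apply_symm_apply]
  | sum i =>
    simp only [heval, Ins.ev]
    rw [← Equiv.sum_comp ψ.symm.toEquiv]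
    exact Finset.sum_congr rfl fun z _ => h i z
  | smul c i =>
    simp only [heval, Ins.ev, h]
    have := h c 0
    rw [map_zero] at this
    rw [this]

/-- The base contents over `V2 κ`. -/
def baseV {n : ℕ} (ψ : J ≃+ V2 κ) (x : Fin n → J → F) : List (Ct κ F) :=
  List.ofFn fun i y => x i (ψ.symm y)

omit [Fintype J] [Field F] in
@[simp] theorem length_baseV {n : ℕ} (x : Fin n → J → F) : (baseV ψ x).length = n := by
  simp [baseV]

theorem hval_run (hg : g.Via pub ψ) (Q : HProg F) (hQ : ∀ i ∈ Q.prog, InsOK g i) {n : ℕ}
    (x : Fin n → J → F) {i : ℕ} (hi : i < n + Q.HL) (y : V2 κ) :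
    hval g Q x i (ψ.symm y) = (run pub Q.prog (baseV ψ x)).getD i 0 y := by
  rw [run_eq_runL, getD_runL (0 : Ct κ F) _ _ (by simpa [HProg.HL] using hi)]
  induction i using Nat.strong_induction_on generalizing y with
  | _ i ih =>
    rcases Nat.lt_or_ge i n with h1 | h1
    · have h2 := hval_base (g := g) Q x ⟨i, h1⟩
      simp only at h2
      have hl : i < (baseV ψ x).length := by simpa using h1
      have h3 : (baseV ψ x)[i] = fun y => x ⟨i, h1⟩ (ψ.symm y) := List.getElem_ofFn ..
      rw [h2, runV_base _ _ _ hl, List.getD_eq_getElem _ _ hl, h3]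
    · obtain ⟨k, rfl⟩ := Nat.exists_eq_add_of_le h1
      have h2 := runV_add' (0 : Ct κ F) (baseV ψ x)
        (fun k us => (Q.prog.getD k (.lin [])).ev pub us) k
      rw [length_baseV] at h2
      rw [hval_add, h2]
      apply ev_via hg
      · intro m z
        rw [getD_map_range]
        unfold trunc
        split_ifs with h3
        · exact ih m h3 (by omega) z
        · rfl
      · unfold HProg.ins
        have h3 : k < Q.prog.length := by unfold HProg.HL at hi; omega
        rw [List.getD_eq_getElem _ _ h3]
        exact hQ _ (List.getElem_mem _)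

theorem hval_run' (hg : g.Via pub ψ) (Q : HProg F) (hQ : ∀ i ∈ Q.prog, InsOK g i) {n : ℕ}
    (x : Fin n → J → F) {i : ℕ} (hi : i < n + Q.HL) (y : J) :
    hval g Q x i y = (run pub Q.prog (baseV ψ x)).getD i 0 (ψ y) := by
  rw [← hval_run hg Q hQ x hi, AddEquiv.symm_apply_apply]

/-- The scalars of a program with `runOK` are constant. -/
theorem cst_of_runOK (hg : g.Via pub ψ) (Q : HProg F) (hQ : ∀ i ∈ Q.prog, InsOK g i) {n : ℕ}
    (x : Fin n → J → F) (h : runOK pub Q.prog (baseV ψ x)) (k c i : ℕ) (hk : k < Q.HL)
    (hi : Q.ins k = .smul c i) : c < n + k ∧ ∀ y, hval g Q x c y = hval g Q x c 0 := by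
  obtain ⟨h1, a, ha⟩ := runOK_getD pub h hk hi
  rw [length_baseV] at h1
  refine ⟨h1, fun y => ?_⟩
  rw [hval_run' hg Q hQ x (by omega), hval_run' hg Q hQ x (by omega), ha]

end

end Vale.Agent.P330.H155
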