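import Mathlib

/-!
# Values computed one after the other

`runL base f k` is the list of the `base` values followed by `k` further values, each of them
computed by `f` from its number and from the list of the older values.
-/

set_option autoImplicit false

namespace Vale.Agent.P330.H155

section Run

variable {V : Type*}

/-- the list of the values after `k` steps -/
def runL (base : List V) (f : ℕ → List V → V) : ℕ → List V
  | 0 => base
  | k + 1 => runL base f k ++ [f k (runL base f k)]

@[simp] theorem length_runL (base : List V) (f : ℕ → List V → V) (k : ℕ) :
    (runL base f k).length = base.length + k := by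
  induction k with
  | zero => rfl
  | succ k ih => simp [runL, ih, Nat.add_assoc]

/-- the value number `j` -/
def runV (d : V) (base : List V) (f : ℕ → List V → V) (j : ℕ) : V :=
  (runL base f (j + 1)).getD j d

theorem getD_runL_succ (d : V) (base : List V) (f : ℕ → List V → V) {k j : ℕ}
    (h : j < base.length + k) : (runL base f (k + 1)).getD j d = (runL base f k).getD j d := by
  rw [runL, List.getD_append]
  simpa using h

theorem getD_runL_add (d : V) (base : List V) (f : ℕ → List V → V) {k j : ℕ} (m : ℕ)
    (h : j < base.length + k) : (runL base f (k + m)).getD j d = (runL base f k).getD j d := by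
  induction m with
  | zero => rfl
  | succ m ih => rw [← Nat.add_assoc, getD_runL_succ d base f (by omega), ih]

theorem getD_runL (d : V) (base : List V) (f : ℕ → List V → V) {k j : ℕ}
    (h : j < base.length + k) : (runL base f k).getD j d = runV d base f j := by
  unfold runV
  rcases le_total k (j + 1) with h1 | h1
  · obtain ⟨m, hm⟩ := Nat.exists_eq_add_of_le h1
    rw [hm, getD_runL_add d base f m h]
  · obtain ⟨m, hm⟩ := Nat.exists_eq_add_of_le h1
    rw [hm, getD_runL_add d base f m (by omega)]

theorem runL_eq_map (d : V) (base : List V) (f : ℕ → List V → V) (k : ℕ) :
    runL base f k = (List.range (base.length + k)).map (runV d base f) := by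
  apply List.ext_getElem (by simp)
  intro i h1 h2
  have h3 : i < base.length + k := by simpa using h1
  have := getD_runL d base f h3
  rw [List.getD_eq_getElem _ _ h1] at this
  simpa using this

theorem runV_base (d : V) (base : List V) (f : ℕ → List V → V) {j : ℕ} (h : j < base.length) :
    runV d base f j = base.getD j d := by
  rw [← getD_runL (k := 0) d base f (by omega)]; rfl

theorem runV_add (d : V) (base : List V) (f : ℕ → List V → V) (k : ℕ) :
    runV d base f (base.length + k) = f k (runL base f k) := by
  rw [← getD_runL (k := k + 1) d base f (by omega), runL, List.getD_append_right]
  · simp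
  · simp

theorem runV_add' (d : V) (base : List V) (f : ℕ → List V → V) (k : ℕ) :
    runV d base f (base.length + k) =
      f k ((List.range (base.length + k)).map (runV d base f)) := by
  rw [runV_add, runL_eq_map d]

end Run

end Vale.Agent.P330.H155
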