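import Vale.Agent.P330.H155.Alg
import Vale.Agent.P330.H155.Run
import Vale.Agent.P330.H16.Asm

/-!
# Content programs and their registers

* `KIns`, `Kit`: low-level instructions and the fixed block of registers following every content.
* `H16.Ins`, `HProg`: high-level instructions, the content program.
* `cnt`, `row`: content and row of every register; `link`: the site function;
  `link_row`: every row is the site function of the older rows at the wired neighbours.
-/

set_option autoImplicit false

namespace Vale.Agent.P330.H155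

open Finset H16

/-- linear combination of the entries of a list -/
def lcomb {F V : Type*} [AddCommMonoid V] [SMul F V] (l : List (F × ℕ)) (us : ℕ → V) : V :=
  (l.map fun p => p.1 • us p.2).sum

/-- Low-level instructions. -/
inductive KIns (F iJ iG Γ B : Type*)
  /-- linear combination -/
  | lin (l : List (F × ℕ))
  /-- translation by a generator in `J` -/
  | tr (a : iJ) (i : ℕ)
  /-- composition with a generator in `Γ` -/
  | gm (a : iG) (i : ℕ)
  /-- multiplication by the additive function `p`; `tab v b` is the number of the register with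
  the content `u_i * (φ_p G_{(v,b)})` -/
  | t2 (p : ℕ) (i : ℕ) (tab : Γ → B → ℕ)

/-- Public data: the generators, the additive functions, the translations and the hard-wired
contents. -/
structure Gen (J Γ F iJ iG : Type*) where
  sJ : iJ → J
  gG : iG → Γ
  /-- number of additive functions -/
  nP : ℕ
  phi : ℕ → J → F
  /-- number of translations -/
  nE : ℕ
  eb : ℕ → J
  /-- hard-wired contents -/
  pubc : ℕ → J → F

/-- A well-formed instruction. -/
def InsOK {J Γ iJ iG : Type*} {F : Type} (g : Gen J Γ F iJ iG) : H16.Ins F → Prop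
  | .tr j _ => j < g.nE
  | .mx j _ => j < g.nP
  | _ => True

/-- The kit: a fixed block of registers computed from a content. -/
structure Kit (F iJ iG Γ B : Type*) where
  /-- number of registers of the block; register `0` is the content itself -/
  KL : ℕ
  /-- instruction of the register `r + 1` -/
  ins : ℕ → KIns F iJ iG Γ B
  /-- register of the translate -/
  iT : ℕ → ℕ
  /-- register of the multiple -/
  iM : ℕ → ℕ
  /-- register of the sum -/
  iS : ℕ
  /-- registers of the bundle -/
  iB : Γ → B → ℕ

/-- A content program. -/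
structure HProg (F : Type) where
  /-- the instructions -/
  prog : List (H16.Ins F)
  /-- asserted equalities -/
  eqs : List (ℕ × ℕ)
  /-- asserted products -/
  prods : List (ℕ × ℕ × ℕ)
  /-- the contents of the successor and of the predecessor -/
  out : Bool → ℕ → ℕ

section

variable {J Γ B iJ iG : Type*} {F : Type} [AddCommGroup J] [Fintype J] [Group Γ]
  [DistribMulAction Γ J] [Field F] (g : Gen J Γ F iJ iG) (P : Kit F iJ iG Γ B)

/-- value of a low-level instruction; `us i` are the older contents -/
def keval (us : ℕ → J → F) : KIns F iJ iG Γ B → J → F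
  | .lin l => lcomb l us
  | .tr a i => fun x => us i (x + g.sJ a)
  | .gm a i => fun x => us i (g.gG a • x)
  | .t2 p i _ => fun x => g.phi p x * us i x

/-- contents of the kit registers -/
def kval (u : J → F) : ℕ → J → F :=
  runV 0 [u] fun r us => keval g (fun i => us.getD i 0) (P.ins r)

/-- value of a high-level instruction -/
def heval (us : ℕ → J → F) : H16.Ins F → J → F
  | .lin l => lcomb l us
  | .tr j i => fun x => us i (x + g.eb j)
  | .mx j i => fun x => g.phi j x * us i x
  | .pub p => g.pubc p
  | .sum i => fun _ => ∑ y, us i y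
  | .smul c i => fun x => us c 0 * us i x

/-- the instruction number `k` -/
def HProg.ins (Q : HProg F) (k : ℕ) : H16.Ins F := Q.prog.getD k (.lin [])

/-- the number of instructions -/
def HProg.HL (Q : HProg F) : ℕ := Q.prog.length

/-- the contents of the program -/
def hval {n : ℕ} (Q : HProg F) (x : Fin n → J → F) : ℕ → J → F :=
  runV 0 (List.ofFn x) fun k us => heval g (fun i => us.getD i 0) (Q.ins k)

variable {g P}

omit [Fintype J] in
theorem kval_zero (u : J → F) : kval g P u 0 = u := by
  unfold kval; rw [runV_base _ _ _ (by simp)]; rfl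

/-- truncation of a sequence -/
def trunc {V : Type*} [Zero V] (n : ℕ) (w : ℕ → V) (i : ℕ) : V := if i < n then w i else 0

theorem getD_map_range {V : Type*} [Zero V] (n : ℕ) (w : ℕ → V) (i : ℕ) :
    ((List.range n).map w).getD i 0 = trunc n w i := by
  unfold trunc
  by_cases h : i < n
  · rw [if_pos h, List.getD_eq_getElem _ _ (by simpa using h)]; simp
  · rw [if_neg h, List.getD_eq_default]; simpa using h

theorem trunc_of_lt {V : Type*} [Zero V] {n : ℕ} {w : ℕ → V} {i : ℕ} (h : i < n) :
    trunc n w i = w i := if_pos h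

theorem trunc_of_le {V : Type*} [Zero V] {n : ℕ} {w : ℕ → V} {i : ℕ} (h : n ≤ i) :
    trunc n w i = 0 := if_neg (by omega)

omit [Fintype J] in
theorem kval_succ (u : J → F) (r : ℕ) :
    kval g P u (r + 1) = keval g (trunc (r + 1) (kval g P u)) (P.ins r) := by
  have := runV_add' (0 : J → F) [u] (fun r us => keval g (fun i => us.getD i 0) (P.ins r)) r
  simp only [List.length_singleton] at this
  rw [Nat.add_comm 1 r] at this
  unfold kval
  rw [this]
  congr 1
  funext i
  exact getD_map_range _ _ _

omit [Group Γ] [DistribMulAction Γ J] in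
theorem hval_base {n : ℕ} (Q : HProg F) (x : Fin n → J → F) (i : Fin n) :
    hval g Q x i = x i := by
  unfold hval
  rw [runV_base _ _ _ (by simp), List.getD_eq_getElem _ _ (by simp)]
  simp

omit [Group Γ] [DistribMulAction Γ J] in
theorem hval_add {n : ℕ} (Q : HProg F) (x : Fin n → J → F) (k : ℕ) :
    hval g Q x (n + k) = heval g (trunc (n + k) (hval g Q x)) (Q.ins k) := by
  have := runV_add' (0 : J → F) (List.ofFn x) (fun k us =>
    heval g (fun i => us.getD i 0) (Q.ins k)) k
  rw [List.length_ofFn] at this
  unfold hval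
  rw [this]
  have h1 : ∀ i, ((List.range (n + k)).map (runV (0 : J → F) (List.ofFn x) fun k us =>
      heval g (fun i => us.getD i 0) (Q.ins k))).getD i 0 =
      trunc (n + k) (runV (0 : J → F) (List.ofFn x) fun k us =>
      heval g (fun i => us.getD i 0) (Q.ins k)) i :=
    fun i => getD_map_range _ _ _
  simp only [h1]

end

section Reg

variable {J Γ B iJ iG : Type*} {F : Type} [AddCommGroup J] [Fintype J] [Group Γ]
  [DistribMulAction Γ J] [Field F] {n : ℕ}

/-- All data of the register system. -/
structure RS (J Γ B : Type*) (F : Type) (iJ iG : Type*) [AddCommGroup J] [Group Γ]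
    [DistribMulAction Γ J] [Field F] (n : ℕ) where
  S : Cd J Γ B F
  g : Gen J Γ F iJ iG
  P : Kit F iJ iG Γ B
  Q : HProg F
  /-- number of registers of a bundle -/
  q : ℕ
  /-- enumeration of the registers of a bundle -/
  en : Fin q ≃ Γ × B

namespace RS

variable (R : RS J Γ B F iJ iG n)

/-- the number of base registers -/
def nb : ℕ := n * R.q

/-- the number of further registers -/
def L : ℕ := (n + R.Q.HL) * R.P.KL

/-- the number of the register of the bundle with number `k` -/
def enN (k : ℕ) : Γ × B := if h : k < R.q then R.en ⟨k, h⟩ else (1, R.S.b0)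

/-- the content of the register `k` of the bundle of `u` -/
noncomputable def bcnt (u : J → F) (k : ℕ) : J → F :=
  fun y => conv u (R.S.G (R.enN k).1 (R.enN k).2) ((R.enN k).1 • y)

/-- the base register with the raw content -/
def reg0 : ℕ := (R.en.symm (1, R.S.b0)).val

/-- the register of the content number `i` -/
def reg (i : ℕ) : ℕ := R.nb + i * R.P.KL

/-- The content of every register. -/
noncomputable def cnt (x : Fin n → J → F) (j : ℕ) : J → F :=
  if j < R.nb then
    (if h : j / R.q < n then R.bcnt (x ⟨j / R.q, h⟩) (j % R.q) else 0)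
  else kval R.g R.P (hval R.g R.Q x ((j - R.nb) / R.P.KL)) ((j - R.nb) % R.P.KL)

/-- The row of a register. -/
noncomputable def row (x : Fin n → J → F) (j : ℕ) (h : J × Γ) : B → F := R.S.E (R.cnt x j) h

/-- the site function of a low-level instruction; `off` is the position of the block, `own` the
own rows, `vJ`, `vG` the rows at the neighbours -/
def klink (off : ℕ) (h : J × Γ) (own : ℕ → B → F) (vJ : iJ → ℕ → B → F) (vG : iG → ℕ → B → F) :
    KIns F iJ iG Γ B → B → F
  | .lin l => lcomb l fun i => own (off + i)
  | .tr a i => vJ a (off + i)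
  | .gm a i => vG a (off + i)
  | .t2 p i tab => fun b => R.g.phi p h.1 * own (off + i) b - own (off + tab h.2 b) R.S.b0

/-- the site function of a high-level instruction -/
noncomputable def hlink (h : J × Γ) (own : ℕ → B → F) : H16.Ins F → B → F
  | .lin l => lcomb l fun i => own (R.reg i)
  | .tr j i => own (R.reg i + R.P.iT j)
  | .mx j i => own (R.reg i + R.P.iM j)
  | .pub p => R.S.E (R.g.pubc p) h
  | .sum i => own (R.reg i + R.P.iS)
  | .smul c i => own (R.reg c) R.S.b0 • own (R.reg i)

/-- the site function of the register `nb + j` -/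
noncomputable def linkN (j : ℕ) (h : J × Γ) (own : ℕ → B → F) (vJ : iJ → ℕ → B → F)
    (vG : iG → ℕ → B → F) : B → F :=
  if j % R.P.KL = 0 then
    (if j / R.P.KL < n then own (j / R.P.KL * R.q + R.reg0)
      else R.hlink h own (R.Q.ins (j / R.P.KL - n)))
  else R.klink (R.reg (j / R.P.KL)) h own vJ vG (R.P.ins (j % R.P.KL - 1))

/-- Correctness of the kit. -/
structure KitOK : Prop where
  KL_pos : 0 < R.P.KL
  iT_lt : ∀ j < R.g.nE, R.P.iT j < R.P.KL
  iM_lt : ∀ j < R.g.nP, R.P.iM j < R.P.KL
  iS_lt : R.P.iS < R.P.KL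
  iB_lt : ∀ v b, R.P.iB v b < R.P.KL
  hT : ∀ u, ∀ j < R.g.nE, kval R.g R.P u (R.P.iT j) = fun x => u (x + R.g.eb j)
  hM : ∀ u, ∀ j < R.g.nP, kval R.g R.P u (R.P.iM j) = fun x => R.g.phi j x * u x
  hS : ∀ u, kval R.g R.P u R.P.iS = fun _ => ∑ y, u y
  hB : ∀ u v b, kval R.g R.P u (R.P.iB v b) = fun y => conv u (R.S.G v b) (v • y)
  ht2 : ∀ r p i tab, r + 1 < R.P.KL → R.P.ins r = .t2 p i tab → i < r + 1 ∧
    (∀ v b, tab v b < r + 1) ∧ (∀ x y, R.g.phi p (x + y) = R.g.phi p x + R.g.phi p y) ∧
    ∀ u v b, kval R.g R.P u (tab v b) = conv (kval R.g R.P u i)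
      fun z => R.g.phi p z * R.S.G v b z

/-- Well-formedness of the content program. -/
structure ProgOK : Prop where
  ok : ∀ i ∈ R.Q.prog, InsOK R.g i
  /-- the scalars are constant registers, for all contents -/
  cst : ∀ (x : Fin n → J → F) (k c i : ℕ), k < R.Q.HL → R.Q.ins k = .smul c i →
    c < n + k ∧ ∀ y, hval R.g R.Q x c y = hval R.g R.Q x c 0

variable {R}

omit [Field F] in
theorem lcomb_apply {V : Type*} [AddCommMonoid V] [SMul F V] {α : Type*} (l : List (F × ℕ))
    (us : ℕ → α → V) (x : α) : lcomb l us x = lcomb l (fun i => us i x) := by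
  unfold lcomb
  induction l with
  | nil => rfl
  | cons p l ih => simp [ih]

omit [Fintype J] in
theorem E_lcomb (hS : R.S.Good) (l : List (F × ℕ)) (us : ℕ → J → F) (h : J × Γ) :
    R.S.E (lcomb l us) h = lcomb l fun i => R.S.E (us i) h := by
  unfold lcomb
  induction l with
  | nil => simp [Cd.E_zero hS]
  | cons p l ih =>
    simp only [List.map_cons, List.sum_cons]
    rw [Cd.E_add hS, Cd.E_smul hS]
    simp only [Pi.add_apply, Pi.smul_apply]
    rw [ih]

omit [Fintype J] in
theorem E_trunc (hS : R.S.Good) (m : ℕ) (w : ℕ → J → F) (i : ℕ) (h : J × Γ) :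
    R.S.E (trunc m w i) h = trunc m (fun i => R.S.E (w i) h) i := by
  unfold trunc
  split_ifs
  · rfl
  · rw [Cd.E_zero hS]; rfl

theorem cnt_block (hK : R.KitOK) (x : Fin n → J → F) (i r : ℕ) (hr : r < R.P.KL) :
    R.cnt x (R.reg i + r) = kval R.g R.P (hval R.g R.Q x i) r := by
  unfold cnt reg
  have hp := hK.KL_pos
  rw [if_neg (by omega), show R.nb + i * R.P.KL + r - R.nb = r + i * R.P.KL by omega,
    Nat.add_mul_div_right _ _ hp, Nat.add_mul_mod_self_right, Nat.div_eq_of_lt hr,
    Nat.mod_eq_of_lt hr, Nat.zero_add]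

theorem cnt_reg (hK : R.KitOK) (x : Fin n → J → F) (i : ℕ) :
    R.cnt x (R.reg i) = hval R.g R.Q x i := by
  have := cnt_block hK x i 0 hK.KL_pos
  rwa [Nat.add_zero, kval_zero] at this

omit [Fintype J] in
theorem reg0_lt : R.reg0 < R.q := (R.en.symm (1, R.S.b0)).isLt

theorem cnt_base (x : Fin n → J → F) (i : Fin n) {k : ℕ} (hk : k < R.q) :
    R.cnt x (i * R.q + k) = R.bcnt (x i) k := by
  have hq : 0 < R.q := lt_of_le_of_lt (Nat.zero_le _) hk
  have h1 : i * R.q + k < R.nb := by
    have := i.isLt
    calc i * R.q + k < i * R.q + R.q := by omega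
      _ = (i + 1) * R.q := by ring
      _ ≤ n * R.q := Nat.mul_le_mul_right _ this
  have h2 : ((i : ℕ) * R.q + k) / R.q = i := by
    rw [Nat.add_comm, Nat.add_mul_div_right _ _ hq, Nat.div_eq_of_lt hk, Nat.zero_add]
  have h3 : ((i : ℕ) * R.q + k) % R.q = k := by
    rw [Nat.add_comm, Nat.add_mul_mod_self_right, Nat.mod_eq_of_lt hk]
  unfold cnt
  rw [if_pos h1, dif_pos (by rw [h2]; exact i.isLt), h3]
  congr 2
  exact Fin.ext h2

theorem bcnt_reg0 (hS : R.S.Good) (u : J → F) : R.bcnt u R.reg0 = u := by
  have h : R.enN R.reg0 = (1, R.S.b0) := by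
    unfold enN
    rw [dif_pos reg0_lt]
    have h1 : (⟨R.reg0, reg0_lt⟩ : Fin R.q) = R.en.symm (1, R.S.b0) := Fin.ext rfl
    rw [h1, Equiv.apply_symm_apply]
  funext y
  unfold bcnt
  rw [h]
  simp [Cd.G_b0 hS, conv_dlt]

theorem cnt_base0 (hS : R.S.Good) (x : Fin n → J → F) (i : Fin n) :
    R.cnt x (i * R.q + R.reg0) = x i := by
  rw [cnt_base x i reg0_lt, bcnt_reg0 hS]

/-- **Links.** Every row is the site function of the older rows at the wired neighbours. -/
theorem row_eq_linkN (hS : R.S.Good) (hK : R.KitOK) (hP : R.ProgOK) (x : Fin n → J → F) (j : ℕ)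
    (hj : j < R.L) (h : J × Γ) :
    R.row x (R.nb + j) h = R.linkN j h (trunc (R.nb + j) fun i => R.row x i h)
      (fun a => trunc (R.nb + j) fun i => R.row x i (lt (R.g.sJ a) 1 h))
      (fun a => trunc (R.nb + j) fun i => R.row x i (lt 0 (R.g.gG a) h)) := by
  have hp := hK.KL_pos
  obtain ⟨i, r, hr, rfl⟩ : ∃ i r, r < R.P.KL ∧ j = i * R.P.KL + r :=
    ⟨j / R.P.KL, j % R.P.KL, Nat.mod_lt _ hp, by rw [Nat.mul_comm]; exact (Nat.div_add_mod _ _).symm⟩
  have hdiv : (i * R.P.KL + r) / R.P.KL = i := by
    rw [Nat.add_comm, Nat.add_mul_div_right _ _ hp, Nat.div_eq_of_lt hr, Nat.zero_add]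
  have hmod : (i * R.P.KL + r) % R.P.KL = r := by
    rw [Nat.add_comm, Nat.add_mul_mod_self_right, Nat.mod_eq_of_lt hr]
  have hi : i < n + R.Q.HL := by
    have h1 : i * R.P.KL < (n + R.Q.HL) * R.P.KL := lt_of_le_of_lt (Nat.le_add_right _ r) hj
    exact lt_of_mul_lt_mul_right h1 (Nat.zero_le _)
  have hrow : R.row x (R.nb + (i * R.P.KL + r)) h =
      R.S.E (kval R.g R.P (hval R.g R.Q x i) r) h := by
    unfold row
    rw [← Nat.add_assoc]
    exact congrArg (fun w => R.S.E w h) (cnt_block hK x i r hr)
  rw [hrow]
  unfold linkN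
  rw [hdiv, hmod]
  rcases Nat.eq_zero_or_pos r with hr0 | hr0
  · subst hr0
    rw [if_pos rfl, kval_zero, Nat.add_zero]
    -- the rows of the contents
    have hreg : ∀ m, ∀ s < R.P.KL, (trunc (R.nb + i * R.P.KL) fun i => R.row x i h) (R.reg m + s) =
        R.S.E (kval R.g R.P (trunc i (hval R.g R.Q x) m) s) h ∨ i ≤ m := by
      intro m s hs
      rcases Nat.lt_or_ge m i with hm | hm
      · left
        have h1 : R.reg m + s < R.nb + i * R.P.KL := by
          unfold reg
          have : (m + 1) * R.P.KL ≤ i * R.P.KL := Nat.mul_le_mul_right _ hm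
          rw [Nat.add_mul, Nat.one_mul] at this
          omega
        rw [trunc_of_lt h1, trunc_of_lt hm]
        unfold row
        rw [cnt_block hK x m s hs]
      · right; exact hm
    have hreg2 : ∀ m, ∀ s, i ≤ m →
        (trunc (R.nb + i * R.P.KL) fun i => R.row x i h) (R.reg m + s) = 0 := by
      intro m s hm
      apply trunc_of_le
      unfold reg
      have : i * R.P.KL ≤ m * R.P.KL := Nat.mul_le_mul_right _ hm
      omega
    have hreg0 : ∀ m, (trunc (R.nb + i * R.P.KL) fun i => R.row x i h) (R.reg m) =
        R.S.E (trunc i (hval R.g R.Q x) m) h := by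
      intro m
      rcases hreg m 0 hp with h1 | h1
      · rwa [kval_zero] at h1
      · have := hreg2 m 0 h1
        rw [Nat.add_zero] at this
        rw [this, trunc_of_le h1, Cd.E_zero hS]; rfl
    by_cases hin : i < n
    · rw [if_pos hin]
      have h1 : i * R.q + R.reg0 < R.nb := by
        have h2 := R.reg0_lt
        calc i * R.q + R.reg0 < i * R.q + R.q := by omega
          _ = (i + 1) * R.q := by ring
          _ ≤ n * R.q := Nat.mul_le_mul_right _ hin
      rw [trunc_of_lt (by omega)]
      unfold row
      have h2 := cnt_base0 hS x ⟨i, hin⟩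
      have h3 := hval_base (g := R.g) R.Q x ⟨i, hin⟩
      simp only at h2 h3
      rw [h2, h3]
    · rw [if_neg hin]
      obtain ⟨k, rfl⟩ := Nat.exists_eq_add_of_le (not_lt.mp hin)
      rw [Nat.add_sub_cancel_left]
      rw [hval_add]
      have hkL : k < R.Q.HL := by omega
      have hok : InsOK R.g (R.Q.ins k) := by
        unfold HProg.ins
        rw [List.getD_eq_getElem _ _ hkL]
        exact hP.ok _ (List.getElem_mem _)
      cases hins : R.Q.ins k with
      | lin l =>
        simp only [heval, hlink]
        rw [E_lcomb hS]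
        congr 1
        funext m
        rw [hreg0]
      | tr a m =>
        rw [hins] at hok
        have hT := hK.iT_lt a hok
        simp only [heval, hlink]
        rcases hreg m _ hT with h1 | h1
        · rw [h1, hK.hT _ a hok]
        · rw [hreg2 m _ h1, trunc_of_le h1]
          exact congrFun (Cd.E_zero hS) h
      | mx a m =>
        rw [hins] at hok
        have hT := hK.iM_lt a hok
        simp only [heval, hlink]
        rcases hreg m _ hT with h1 | h1
        · rw [h1, hK.hM _ a hok]
        · rw [hreg2 m _ h1, trunc_of_le h1]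
          have : (fun x => R.g.phi a x * (0 : J → F) x) = 0 := by funext x; simp
          rw [this]
          exact congrFun (Cd.E_zero hS) h
      | pub p => simp only [heval, hlink]
      | sum m =>
        simp only [heval, hlink]
        rcases hreg m _ hK.iS_lt with h1 | h1
        · rw [h1, hK.hS]
        · rw [hreg2 m _ h1, trunc_of_le h1]
          have : (fun _ : J => ∑ y, (0 : J → F) y) = 0 := by funext x; simp
          rw [this]
          exact congrFun (Cd.E_zero hS) h
      | smul c m =>
        obtain ⟨hc, hcc⟩ := hP.cst x k c m hkL hins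
        simp only [heval, hlink]
        rw [hreg0, hreg0, trunc_of_lt hc, Cd.E_b0 hS, hcc h.1]
        have : (fun y => hval R.g R.Q x c 0 * trunc (n + k) (hval R.g R.Q x) m y) =
            hval R.g R.Q x c 0 • trunc (n + k) (hval R.g R.Q x) m := rfl
        rw [this, Cd.E_smul hS]
        rfl
  · obtain ⟨r', rfl⟩ := Nat.exists_eq_add_of_le hr0
    rw [if_neg (by omega), Nat.add_comm 1 r', Nat.add_sub_cancel, kval_succ]
    set u := hval R.g R.Q x i with hu
    have hloc : ∀ (h' : J × Γ) (m : ℕ),
        (trunc (R.nb + (i * R.P.KL + (r' + 1))) fun i => R.row x i h') (R.reg i + m) =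
          R.S.E (trunc (r' + 1) (kval R.g R.P u) m) h' := by
      intro h' m
      rcases Nat.lt_or_ge m (r' + 1) with hm | hm
      · rw [trunc_of_lt hm, trunc_of_lt (by unfold reg; omega)]
        unfold row
        rw [cnt_block hK x i m (by omega)]
      · rw [trunc_of_le hm, trunc_of_le (by unfold reg; omega), Cd.E_zero hS]; rfl
    cases hins : R.P.ins r' with
    | lin l =>
      simp only [keval, klink]
      rw [E_lcomb hS]
      congr 1
      funext m
      rw [hloc]
    | tr a m =>
      simp only [keval, klink]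
      rw [hloc, Cd.E_tr hS]
      congr 1
      simp [lt, add_comm]
    | gm a m =>
      simp only [keval, klink]
      rw [hloc, Cd.E_gm hS]
      congr 1
      simp [lt]
    | t2 p m tab =>
      obtain ⟨h1, h2, h3, h4⟩ := hK.ht2 r' p m tab (by omega) hins
      simp only [keval, klink]
      funext b
      rw [hloc, hloc, trunc_of_lt h1, trunc_of_lt (h2 _ _), h4]
      obtain ⟨y, v⟩ := h
      exact Cd.E_deriv hS (R.g.phi p) h3 _ y v b

end RS

end Reg

end Vale.Agent.P330.H155
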