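import Vale.Agent.P330.H155.Prog
import Vale.Agent.P330.W.H840.OfRS

/-!
# Validity test and dynamics of the register system of a content program

`vchkN`, `nxtN`: the test of the assertions and the base rows of the next content, from the own rows
at a site; `MachOK`: the conditions on the content program and on the dynamics of the contents;
`rfacts`: the facts R1-R6 of `H797.RFacts` for the system `R.sysOf`.
-/

set_option autoImplicit false

namespace Vale.Agent.P330.H155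

open Finset H797 Q

section

variable {J Γ B F iJ iG : Type} [AddCommGroup J] [Fintype J] [Group Γ] [Fintype Γ]
  [DistribMulAction Γ J] [Field F] {n : ℕ}

namespace RS

variable (R : RS J Γ B F iJ iG n)

/-- the assertions at a site -/
def vchkN (own : ℕ → B → F) : Prop :=
  (∀ p ∈ R.Q.eqs, own (R.reg p.1) = own (R.reg p.2)) ∧
  ∀ p ∈ R.Q.prods, own (R.reg p.1) R.S.b0 = own (R.reg p.2.1) R.S.b0 * own (R.reg p.2.2) R.S.b0

/-- the base rows of the next content -/
def nxtN (z : Bool) (own : ℕ → B → F) (k : ℕ) : B → F :=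
  own (R.reg (R.Q.out z (k / R.q)) + R.P.iB (R.enN (k % R.q)).1 (R.enN (k % R.q)).2)

/-- The conditions on the content program and on the dynamics of the contents. -/
structure MachOK (D : Dyn (Fin n → J → F)) (κ : ℝ) : Prop where
  /-- the numbers in the assertions and outputs are numbers of contents -/
  eqs_lt : ∀ p ∈ R.Q.eqs, p.1 < n + R.Q.HL ∧ p.2 < n + R.Q.HL
  prods_lt : ∀ p ∈ R.Q.prods, p.1 < n + R.Q.HL ∧ p.2.1 < n + R.Q.HL ∧ p.2.2 < n + R.Q.HL
  out_lt : ∀ z, ∀ i < n, R.Q.out z i < n + R.Q.HL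
  /-- completeness -/
  eqs : ∀ x, D.Valid x → ∀ p ∈ R.Q.eqs, hval R.g R.Q x p.1 = hval R.g R.Q x p.2
  prods : ∀ x, D.Valid x → ∀ p ∈ R.Q.prods, ∀ y,
    hval R.g R.Q x p.1 y = hval R.g R.Q x p.2.1 y * hval R.g R.Q x p.2.2 y
  /-- soundness -/
  valid : ∀ x, (∀ p ∈ R.Q.eqs, hval R.g R.Q x p.1 = hval R.g R.Q x p.2) →
    (∀ p ∈ R.Q.prods, fr (fun y => hval R.g R.Q x p.1 y ≠
      hval R.g R.Q x p.2.1 y * hval R.g R.Q x p.2.2 y) ≤ κ) → D.Valid x
  /-- the dynamics -/
  out : ∀ z x, D.Valid x → ∀ i : Fin n, hval R.g R.Q x (R.Q.out z i) = D.step z x i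

variable {R} {D : Dyn (Fin n → J → F)}

omit [Fintype Γ] in
theorem own_reg (hK : R.KitOK) (x : Fin n → J → F) (h : J × Γ) {i s : ℕ}
    (hi : i < n + R.Q.HL) (hs : s < R.P.KL) :
    trunc (R.nb + R.L) (fun i => R.row x i h) (R.reg i + s) =
      R.S.E (kval R.g R.P (hval R.g R.Q x i) s) h := by
  have h1 : R.reg i + s < R.nb + R.L := by
    unfold reg L
    have h2 : (i + 1) * R.P.KL ≤ (n + R.Q.HL) * R.P.KL := Nat.mul_le_mul_right _ hi
    rw [Nat.add_mul, Nat.one_mul] at h2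
    omega
  rw [trunc_of_lt h1]
  unfold row
  rw [cnt_block hK x i s hs]

omit [Fintype Γ] in
theorem own_reg0 (hK : R.KitOK) (x : Fin n → J → F) (h : J × Γ) {i : ℕ}
    (hi : i < n + R.Q.HL) :
    trunc (R.nb + R.L) (fun i => R.row x i h) (R.reg i) = R.S.E (hval R.g R.Q x i) h := by
  have := own_reg hK x h hi hK.KL_pos
  rwa [kval_zero, Nat.add_zero] at this

omit [Fintype Γ] in
/-- **R5**, completeness -/
theorem vchkN_of_valid {κ : ℝ} (hS : R.S.Good) (hK : R.KitOK) (hM : R.MachOK D κ)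
    (x : Fin n → J → F) (hx : D.Valid x) (h : J × Γ) :
    R.vchkN (trunc (R.nb + R.L) (fun i => R.row x i h)) := by
  refine ⟨fun p hp => ?_, fun p hp => ?_⟩
  · obtain ⟨h1, h2⟩ := hM.eqs_lt p hp
    rw [own_reg0 hK x h h1, own_reg0 hK x h h2, hM.eqs x hx p hp]
  · obtain ⟨h1, h2, h3⟩ := hM.prods_lt p hp
    rw [own_reg0 hK x h h1, own_reg0 hK x h h2, own_reg0 hK x h h3, Cd.E_b0 hS,
      Cd.E_b0 hS, Cd.E_b0 hS, hM.prods x hx p hp]

omit [AddCommGroup J] [DistribMulAction Γ J] in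
theorem fr_fst (P : J → Prop) : fr (fun h : J × Γ => P h.1) = fr P := by
  classical
  unfold fr
  have h1 : (univ.filter fun h : J × Γ => P h.1) = (univ.filter P) ×ˢ (univ : Finset Γ) := by
    ext ⟨a, b⟩; simp
  rw [Fintype.card_prod]
  have h2 : (univ.filter fun h : J × Γ => P h.1).card = (univ.filter P).card * Fintype.card Γ := by
    rw [h1, Finset.card_product, Finset.card_univ]
  have h3 : (Fintype.card Γ : ℝ) ≠ 0 := by
    have : 0 < Fintype.card Γ := Fintype.card_pos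
    positivity
  have h4 : @Finset.card (J × Γ) (univ.filter fun h : J × Γ => P h.1) =
      (univ.filter P).card * Fintype.card Γ := h2
  rw [show ((@Finset.filter (J × Γ) (fun h => P h.1) (fun _ => Classical.propDecidable _)
    univ).card : ℝ) = ((univ.filter P).card * Fintype.card Γ : ℕ) by
      rw [← h4]]
  push_cast
  rw [mul_div_mul_right _ _ h3]

theorem fr_mono {Om : Type} [Fintype Om] {P P' : Om → Prop} (h : ∀ x, P x → P' x) :
    fr P ≤ fr P' := by
  classical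
  unfold fr
  apply div_le_div_of_nonneg_right _ (Nat.cast_nonneg _)
  exact_mod_cast Finset.card_le_card (Finset.monotone_filter_right _ (fun x _ hx => h x hx))

omit [Fintype Γ] in
theorem vchkN_eq (hK : R.KitOK) {κ : ℝ} (hM : R.MachOK D κ)
    (x : Fin n → J → F) (h : J × Γ)
    (hv : R.vchkN (trunc (R.nb + R.L) (fun i => R.row x i h))) (p : ℕ × ℕ) (hp : p ∈ R.Q.eqs) :
    R.S.E (hval R.g R.Q x p.1) h = R.S.E (hval R.g R.Q x p.2) h := by
  obtain ⟨h3, h4⟩ := hM.eqs_lt p hp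
  rw [← own_reg0 hK x h h3, ← own_reg0 hK x h h4]
  exact hv.1 p hp

omit [Fintype Γ] in
theorem vchkN_prod (hS : R.S.Good) (hK : R.KitOK) {κ : ℝ} (hM : R.MachOK D κ)
    (x : Fin n → J → F) (h : J × Γ)
    (hv : R.vchkN (trunc (R.nb + R.L) (fun i => R.row x i h))) (p : ℕ × ℕ × ℕ)
    (hp : p ∈ R.Q.prods) :
    hval R.g R.Q x p.1 h.1 = hval R.g R.Q x p.2.1 h.1 * hval R.g R.Q x p.2.2 h.1 := by
  obtain ⟨h3, h4, h5⟩ := hM.prods_lt p hp
  have h6 := hv.2 p hp
  rwa [own_reg0 hK x h h3, own_reg0 hK x h h4, own_reg0 hK x h h5, Cd.E_b0 hS,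
    Cd.E_b0 hS, Cd.E_b0 hS] at h6

/-- **R5**, soundness -/
theorem valid_of_vchkN {κ κ' θ : ℝ} (hS : R.S.Good) (hK : R.KitOK) (hM : R.MachOK D κ)
    (hd : H840.DistE R.S θ) (h1 : κ' ≤ κ) (h2 : κ' < θ) (x : Fin n → J → F)
    (hx : fr (fun h => ¬ R.vchkN (trunc (R.nb + R.L) (fun i => R.row x i h))) ≤ κ') :
    D.Valid x := by
  apply hM.valid
  · intro p hp
    by_contra hne
    have h5 := hd _ _ hne
    have h6 : fr (fun h => R.S.E (hval R.g R.Q x p.1) h ≠ R.S.E (hval R.g R.Q x p.2) h) ≤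
        fr (fun h => ¬ R.vchkN (trunc (R.nb + R.L) (fun i => R.row x i h))) :=
      fr_mono fun h hh hv => hh (vchkN_eq hK hM x h hv p hp)
    linarith
  · intro p hp
    have h6 : fr (fun h : J × Γ => hval R.g R.Q x p.1 h.1 ≠
        hval R.g R.Q x p.2.1 h.1 * hval R.g R.Q x p.2.2 h.1) ≤
        fr (fun h => ¬ R.vchkN (trunc (R.nb + R.L) (fun i => R.row x i h))) :=
      fr_mono fun h hh hv => hh (vchkN_prod hS hK hM x h hv p hp)
    have h7 := fr_fst (Γ := Γ) (fun y => hval R.g R.Q x p.1 y ≠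
        hval R.g R.Q x p.2.1 y * hval R.g R.Q x p.2.2 y)
    linarith

omit [Fintype Γ] in
/-- **R6** -/
theorem nxtN_row {κ : ℝ} (hK : R.KitOK) (hM : R.MachOK D κ) (z : Bool)
    (x : Fin n → J → F) (hx : D.Valid x) (h : J × Γ) :
    (List.range R.nb).map (R.nxtN z (trunc (R.nb + R.L) (fun i => R.row x i h))) =
      (List.range R.nb).map fun j => R.row (D.step z x) j h := by
  apply List.map_congr_left
  intro k hk
  rw [List.mem_range] at hk
  have hq : 0 < R.q := by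
    rcases Nat.eq_zero_or_pos R.q with h0 | h0
    · unfold nb at hk; rw [h0] at hk; omega
    · exact h0
  have h1 : k / R.q < n := by rw [Nat.div_lt_iff_lt_mul hq]; exact hk
  unfold row cnt nxtN
  rw [if_pos hk, dif_pos h1]
  have h3 := own_reg hK x h
    (hM.out_lt z _ h1) (hK.iB_lt (R.enN (k % R.q)).1 (R.enN (k % R.q)).2)
  refine h3.trans ?_
  rw [hK.hB, hM.out z x hx ⟨k / R.q, h1⟩]
  rfl

variable (R) in
/-- The register system of the content program. -/
noncomputable def sysOf {K : ℕ} (W : H840.Wires R.S R.g.gG R.g.sJ K)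
    (DL DR : (B → Option F) → B → F) (D : Dyn (Fin n → J → F)) : H840.Dat R.S R.g.gG R.g.sJ K :=
  H840.datOf R W DL DR (fun _ own => R.vchkN own)
    (fun z _ own => (List.range R.nb).map (R.nxtN z own)) D

/-- **R1-R6** for the register system of the content program. -/
theorem rfacts {K : ℕ} {W : H840.Wires R.S R.g.gG R.g.sJ K} {DL DR : (B → Option F) → B → F}
    (hS : R.S.Good) (hK : R.KitOK) (hP : R.ProgOK) (c : Cst) (hpos : 0 < n + R.Q.HL)
    (hM : R.MachOK D c.κV) (hlt : c.κV < c.θ)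
    (hExp : H840.ExpandE W.wr c.cE) (hEx : H840.ExactE R.S c.C c.ρ₀)
    (hCo : H840.ContractE R.S (R.sysOf W DL DR D) c.ρ₁ c.c₀) (hDi : H840.DistE R.S c.θ)
    {κ : ℝ → ℝ} (hLtc : H840.LtcE R.S R.g.gG κ)
    (hκ : ∀ ρ, 0 < ρ → c.κL ρ ≤ min (κ (ρ / 2)) (ρ / 2)) :
    RFacts (R.sysOf W DL DR D).sys c :=
  H840.rfacts_of hS hK hP c hpos hExp hEx hCo hDi hLtc hκ
    (fun x hx h => vchkN_of_valid hS hK hM x hx h)
    (fun x hx => valid_of_vchkN hS hK hM hDi le_rfl hlt x hx)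
    (fun z x hx h => nxtN_row hK hM z x hx h)

end RS

end

end Vale.Agent.P330.H155
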