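import Vale.Agent.P330.H155.TopMach
import Vale.Agent.P330.W.H840.Upper
import Vale.Agent.P330.W.H604.Full
import Vale.Agent.P330.H675.KWords
import Vale.Agent.P330.H743.Comp
import Vale.Agent.P330.H933.Gen

/-!
# The concrete register system

For parameters `lq`, `le`, `d` (levels of the small and of the big field, degrees of the components
of `J`): the public data `genI`, the record `rsI`, the wires and decoders, the register system
`sysI` with a kit and a content program, and its facts.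
-/

set_option autoImplicit false
set_option linter.unusedSectionVars false

namespace Vale.Agent.P330.H155

open Finset H16 H797 Q H743
open Vale.Agent.P330.H933 (Fl th eF)
open Vale.Agent.P330.H604 (cG gE ocK ocW)
open Vale.Agent.P330.H675 (JJ gen DegOK kap jn ebas jco enG)
open Vale.Agent.P330.H840 (OHyp oc tg12 dcr cst kapL CodeOK)
open W (Abs)

/-- The number of labels. -/
abbrev nLab (A : Abs 8 20) : ℕ := 2 ^ (A.j * A.t)

/-- The conditions on the parameters. -/
structure SzOK (A : Abs 8 20) (lq le : ℕ) (d : Fin 8 → ℕ) : Prop where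
  deg : DegOK (Fl lq) d
  big : cG lq * nLab A < eF le

section

variable {A : Abs 8 20} {lq le : ℕ} {d : Fin 8 → ℕ}

/-- The conditions of the outer code. -/
theorem SzOK.ohyp (h : SzOK A lq le d) : OHyp A (th lq) d (th le) where
  hθ := H604.closure_th lq
  hd := h.deg.pos
  hq := h.deg.le
  hgen f hf hdeg := H933.aeval_th_ne_zero hf (lt_of_le_of_lt hdeg (by
    rw [H604.card_SL3]; exact h.big))

end

section gen

variable {lq le : ℕ} {d : Fin 8 → ℕ} (h : DegOK (Fl lq) d)
  (pub : ℕ → Ct (kap lq d) (Fl le))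

/-- **The public data of the instance.** -/
noncomputable def genI : Gen (JJ (Fl lq) d) (H604.SL3 lq) (Fl le) (Fin 8) (Fin 12) where
  sJ i := gen (Fl lq) d i
  gG := tg12 (th lq)
  nP := kap lq d
  phi j x := bx j (jco lq d h x)
  nE := kap lq d
  eb j := ebas lq d j
  pubc p x := pub p (jco lq d h x)

theorem jco_ebas {j : ℕ} (hj : j < kap lq d) : jco lq d h (ebas lq d j) = e (kap lq d) j := by
  funext i
  rw [H675.jco_apply, H675.jn_ebas h hj, Nat.testBit_two_pow]
  unfold e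
  by_cases hi : j = (i : ℕ)
  · simp [hi]
  · simp [hi, Ne.symm hi]

/-- The public data come from data over `V2 κ`. -/
theorem via_genI : (genI h pub).Via pub (jco lq d h) where
  eb j hj := by
    rw [AddEquiv.eq_symm_apply]
    exact jco_ebas h hj
  phi _ _ _ := rfl
  pubc _ _ := rfl

end gen

section rs

variable (A : Abs 8 20) {lq : ℕ} (le : ℕ) {d : Fin 8 → ℕ} (h : DegOK (Fl lq) d)
  (pub : ℕ → Ct (kap lq d) (Fl le))
  (Kt : Kit (Fl le) (Fin 8) (Fin 12) (H604.SL3 lq) (Fin (nLab A))) (Pg : HProg (Fl le)) (n : ℕ)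

/-- **The record of the instance.** -/
noncomputable def rsI :
    RS (JJ (Fl lq) d) (H604.SL3 lq) (Fin (nLab A)) (Fl le) (Fin 8) (Fin 12) n where
  S := oc A (th lq) d (th le)
  g := genI h pub
  P := Kt
  Q := Pg
  q := cG lq * nLab A
  en := enG lq (nLab A)

/-- **The register system of the instance.** -/
noncomputable def datI (nx : ℕ) (D : Dyn (Fin n → JJ (Fl lq) d → Fl le)) :
    H840.Dat (rsI A le h pub Kt Pg n).S (rsI A le h pub Kt Pg n).g.gG
      (rsI A le h pub Kt Pg n).g.sJ (ocK A nx) :=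
  (rsI A le h pub Kt Pg n).sysOf (ocW A lq d (th le) nx) (dcr A (th le) false)
    (dcr A (th le) true) D

end rs

section facts

variable {A : Abs 8 20} {lq le : ℕ} {d : Fin 8 → ℕ} {I : EndOfLine} {k a : ℕ}
  {R : RSys (mpI I k a (kap lq d)).κ (Fl le)} {pub : ℕ → Ct (mpI I k a (kap lq d)).κ (Fl le)}
  {n : ℕ} {Pg : HProg (Fl le)}
  {enc : Cont (mpI I k a (kap lq d)).κ (Fl le) → Fin n → Ct (mpI I k a (kap lq d)).κ (Fl le)}

/-- The dynamics of the contents. -/
noncomputable def dynI (hT : TopOK (mpI I k a (kap lq d)) R pub Pg enc) (h : DegOK (Fl lq) d)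
    (hf : Fits I k a) (hκ : k + 3 ≤ kap lq d) : Dyn (Fin n → JJ (Fl lq) d → Fl le) :=
  hT.dynJ (jco lq d h) (via_genI h pub) le_rfl le_rfl (mpI_good hf hκ) (computes_mpI hf)

theorem progOKI (hT : TopOK (mpI I k a (kap lq d)) R pub Pg enc) (h : DegOK (Fl lq) d)
    (Kt : Kit (Fl le) (Fin 8) (Fin 12) (H604.SL3 lq) (Fin (nLab A))) :
    (rsI A le h pub Kt Pg n).ProgOK :=
  hT.progOK _ rfl rfl (jco lq d h) (via_genI h pub) le_rfl le_rfl

theorem machOKI (hT : TopOK (mpI I k a (kap lq d)) R pub Pg enc) (h : DegOK (Fl lq) d)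
    (hf : Fits I k a) (hκ : k + 3 ≤ kap lq d)
    (Kt : Kit (Fl le) (Fin 8) (Fin 12) (H604.SL3 lq) (Fin (nLab A))) {κV : ℝ}
    (hV : κV ≤ 1 / 10) : (rsI A le h pub Kt Pg n).MachOK (dynI hT h hf hκ) κV :=
  hT.machOK _ rfl rfl (jco lq d h) (via_genI h pub) le_rfl le_rfl (mpI_good hf hκ)
    (computes_mpI hf) hV

theorem codeOKI (hs : SzOK A lq le d)
    (Kt : Kit (Fl le) (Fin 8) (Fin 12) (H604.SL3 lq) (Fin (nLab A))) :
    CodeOK (rsI A le hs.deg pub Kt Pg n).S (rsI A le hs.deg pub Kt Pg n).g.gG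
      (kapL (nLab A) A.kap (1 / 2 ^ 16)) := by
  have := H840.codeOK hs.ohyp
  push_cast
  exact this

/-- **The facts R1-R6 for the register system of the instance.** -/
theorem rfactsI (hT : TopOK (mpI I k a (kap lq d)) R pub Pg enc) (hs : SzOK A lq le d)
    (hf : Fits I k a) (hκ : k + 3 ≤ kap lq d)
    {Kt : Kit (Fl le) (Fin 8) (Fin 12) (H604.SL3 lq) (Fin (nLab A))}
    (hK : (rsI A le hs.deg pub Kt Pg n).KitOK) (hn : 0 < n + Pg.HL) {nx : ℕ} (hnx : 75 ≤ nx)
    {κV : ℝ} (h0 : 0 < κV) (h1 : κV < 1 / 2 ^ 16) :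
    RFacts (datI A le hs.deg pub Kt Pg n nx (dynI hT hs.deg hf hκ)).sys (cst A κV h0) := by
  refine H840.rfactsC A (R := rsI A le hs.deg pub Kt Pg n) ?_ hK (progOKI hT hs.deg Kt) hn h0 h1
    (machOKI hT hs.deg hf hκ Kt ?_) ?_ ?_ ?_
  · exact H840.codeOK hs.ohyp
  · have : (1 : ℝ) / 2 ^ 16 ≤ 1 / 10 := by norm_num
    linarith
  · have := H840.decodes_dcr hs.ohyp false
    rw [← H840.coe_cc (θ := th lq) (d := d)] at this
    exact this
  · have := H840.decodes_dcr hs.ohyp true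
    rw [← H840.coe_cc (θ := th lq) (d := d)] at this
    exact this
  · have := H604.ocK_le A lq d (th le) nx hnx
    rw [Fintype.card_fin]
    exact this

/-- **The facts F1-F6 for the block system of the instance.** -/
theorem bfactsI (hT : TopOK (mpI I k a (kap lq d)) R pub Pg enc) (hs : SzOK A lq le d)
    (hf : Fits I k a) (hκ : k + 3 ≤ kap lq d)
    {Kt : Kit (Fl le) (Fin 8) (Fin 12) (H604.SL3 lq) (Fin (nLab A))}
    (hK : (rsI A le hs.deg pub Kt Pg n).KitOK) (hn : 0 < n + Pg.HL) {nx : ℕ} (hnx : 75 ≤ nx)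
    {κV : ℝ} (h0 : 0 < κV) (h1 : κV < 1 / 2 ^ 16) :
    BFacts (datI A le hs.deg pub Kt Pg n nx (dynI hT hs.deg hf hκ)).sys.bsys
      (H797.kap (cst A κV h0) (ocK A nx)) (1 / 2 ^ 16) (1 / 2 ^ 17) (1 / 64) :=
  bfacts (rfactsI hT hs hf hκ hK hn hnx h0 h1)

end facts

/-! ### Components of the register system -/

section comp

variable {A : Abs 8 20} {lq le : ℕ} {d : Fin 8 → ℕ} {h : DegOK (Fl lq) d}
  {pub : ℕ → Ct (kap lq d) (Fl le)}
  {Kt : Kit (Fl le) (Fin 8) (Fin 12) (H604.SL3 lq) (Fin (nLab A))} {Pg : HProg (Fl le)} {n nx : ℕ}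
  {D : Dyn (Fin n → JJ (Fl lq) d → Fl le)}

theorem datI_wr (i : Fin (ocK A nx)) :
    (datI A le h pub Kt Pg n nx D).sys.wr i = (ocW A lq d (th le) nx).wr i := rfl

theorem datI_own : (datI A le h pub Kt Pg n nx D).sys.own =
    H604.wKe (Fin (nLab A)) (Fin 12) (Fin 8) nx (.inl ()) := rfl

theorem datI_nb : (datI A le h pub Kt Pg n nx D).sys.nb = n * (cG lq * nLab A) := rfl

theorem datI_L : (datI A le h pub Kt Pg n nx D).sys.L = (n + Pg.HL) * Kt.KL := rfl

theorem datI_D : (datI A le h pub Kt Pg n nx D).sys.D = D := rfl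

end comp

end Vale.Agent.P330.H155
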