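import Vale.Agent.P330.H155.RSInst
import Vale.Agent.P330.W.H840.ParO
import Vale.Agent.P330.H675.KPI
import Vale.Agent.P330.W.H624.Kit
import Vale.Agent.P330.H933.PubI
import Vale.Agent.P330.H743.Enc

/-!
# The family of register systems

For an instance `I` of End-of-Line: the kit `kitJ`, the Reed-Solomon system `rJ`, the hard-wired
contents `pubJ`, the register system `YJ` and its facts, for a content program `Pg` of the machine
(`TopOK`).
-/

set_option autoImplicit false
set_option linter.unusedSectionVars false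

namespace Vale.Agent.P330.H155

open Finset H16 H797 Q H743
open Vale.Agent.Lib.PolyTime
open Vale.Agent.P330.H933 (Fl th eF rth pubF)
open Vale.Agent.P330.H604 (cG gE ocK ocW)
open Vale.Agent.P330.H675 (JJ gen DegOK jn ebas jco enG kpI)
open Vale.Agent.P330.H840 (OHyp oc tg12 dcr cst A0 lqJ dJ leJ kapJ mpJ degJ ohypJ)
open W (Abs)
open W.H624 (KP)

/-- The conditions on the parameters. -/
theorem szJ (I : EndOfLine) : SzOK A0 (lqJ I) (leJ I) (dJ I) where
  deg := degJ I
  big := H247.cG_mul_lt I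

/-- The Reed-Solomon system of the instance. -/
noncomputable def rJ (I : EndOfLine) : RSys (mpJ I).κ (Fl (leJ I)) :=
  rth (leJ I) (kapJ I) (H840.kapJ_lt I).le

/-- The hard-wired contents of the instance. -/
noncomputable def pubJ (I : EndOfLine) : ℕ → Ct (mpJ I).κ (Fl (leJ I)) := pubF (mpJ I) (rJ I)

/-- The tables of the kit of the instance. -/
noncomputable def kpJ (I : EndOfLine) :
    KP (Fl (leJ I)) (Fin 8) (Fin 12) (H604.SL3 (lqJ I)) (Fin (nLab A0)) :=
  kpI (lqJ I) (leJ I) (dJ I) A0.j A0.t (A0.P false) (A0.P true) (A0.B false) (A0.B true)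
    (th (leJ I))

/-- The kit of the instance. -/
noncomputable def kitJ (I : EndOfLine) :
    Kit (Fl (leJ I)) (Fin 8) (Fin 12) (H604.SL3 (lqJ I)) (Fin (nLab A0)) := (kpJ I).kit

theorem kitOKJ (I : EndOfLine) (Pg : HProg (Fl (leJ I))) (n : ℕ) :
    (rsI A0 (leJ I) (degJ I) (pubJ I) (kitJ I) Pg n).KitOK := by
  classical
  refine W.H624.kitOK (P := kpJ I) (ψ := jco (lqJ I) (dJ I) (degJ I)) (b0 := A0.b0)
    (rsI A0 (leJ I) (degJ I) (pubJ I) (kitJ I) Pg n) rfl rfl (H840.oc_good (ohypJ I)) ?_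
    (W.H624.matA_mul (A0.info false) (A0.card_B false) (A0.info true) (A0.card_B true) A0.disj
      fun f hf hdeg => ?_)
    (H675.kpI_ok (degJ I) ?_ (genI (degJ I) (pubJ I)) (fun _ => rfl)
      (fun c => H604.tg12_eq (lqJ I) c) rfl rfl (fun _ _ _ => rfl) fun i hi => ?_)
  · exact Nat.mul_pos (H604.cG_pos _) (by positivity)
  · refine (ohypJ I).hgen f hf ?_
    rwa [Fintype.card_fin] at hdeg
  · have := A0.hm
    omega
  · exact (H675.jco_symm_e (degJ I) hi).symm

/-- The number of the base contents. -/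
noncomputable def nJ (I : EndOfLine) : ℕ := nB (mpJ I).k (mpJ I).L

/-- The content programs of the machines. -/
structure TopJ where
  Pg : ∀ I, HProg (Fl (leJ I))
  ok : ∀ I, TopOK (mpJ I) (rJ I) (pubJ I) (Pg I) (H743.enc (mpJ I).k (mpJ I).L)

namespace TopJ

variable (T : TopJ)

/-- The sites. -/
abbrev _root_.Vale.Agent.P330.H155.OmJ (I : EndOfLine) : Type :=
  JJ (Fl (lqJ I)) (dJ I) × H604.SL3 (lqJ I)

/-- The symbols. -/
abbrev _root_.Vale.Agent.P330.H155.SJ (I : EndOfLine) : Type := Fin (nLab A0) → Fl (leJ I)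

/-- The contents. -/
abbrev _root_.Vale.Agent.P330.H155.XJ (I : EndOfLine) : Type :=
  Fin (nJ I) → JJ (Fl (lqJ I)) (dJ I) → Fl (leJ I)

/-- The record of the instance. -/
noncomputable def rs (I : EndOfLine) :
    RS (JJ (Fl (lqJ I)) (dJ I)) (H604.SL3 (lqJ I)) (Fin (nLab A0)) (Fl (leJ I)) (Fin 8) (Fin 12)
      (nJ I) :=
  rsI A0 (leJ I) (degJ I) (pubJ I) (kitJ I) (T.Pg I) (nJ I)

/-- The dynamics of the contents. -/
noncomputable def dyn (I : EndOfLine) : Dyn (XJ I) :=
  dynI (T.ok I) (degJ I) (fits_kI I) (H840.kI_add_le I)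

/-- The register system, with the components of `H840.Dat`. -/
noncomputable def dat (I : EndOfLine) :
    H840.Dat (T.rs I).S (T.rs I).g.gG (T.rs I).g.sJ (ocK A0 75) :=
  datI A0 (leJ I) (degJ I) (pubJ I) (kitJ I) (T.Pg I) (nJ I) 75 (T.dyn I)

/-- **The register system of an instance.** -/
noncomputable def Y (I : EndOfLine) : Sys (OmJ I) (SJ I) (XJ I) (ocK A0 75) := (T.dat I).sys

theorem kitOK (I : EndOfLine) : (T.rs I).KitOK := kitOKJ I (T.Pg I) (nJ I)

theorem progOK (I : EndOfLine) : (T.rs I).ProgOK := progOKI (T.ok I) (degJ I) (kitJ I)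

theorem good (I : EndOfLine) : (T.rs I).S.Good := H840.oc_good (ohypJ I)

theorem nJ_pos (I : EndOfLine) : 0 < nJ I := by
  unfold nJ nB
  omega

/-- The constants. -/
noncomputable def _root_.Vale.Agent.P330.H155.cstJ : Cst := cst A0 (1 / 2 ^ 17) (by positivity)

/-- The function of the soundness of the test. -/
noncomputable def _root_.Vale.Agent.P330.H155.kapR : ℝ → ℝ := H797.kap cstJ (ocK A0 75)

theorem kapR_pos (ρ : ℝ) (hρ : 0 < ρ) : 0 < kapR ρ := H797.kap_pos _ _ hρ

/-- **The facts R1-R6 for all instances.** -/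
theorem rfacts (I : EndOfLine) : RFacts (T.Y I) cstJ :=
  rfactsI (T.ok I) (szJ I) (fits_kI I) (H840.kI_add_le I) (T.kitOK I)
    (Nat.add_pos_left (nJ_pos I) _) le_rfl (by positivity) (by norm_num)

/-- **The facts F1-F6 for all instances.** -/
theorem bfacts (I : EndOfLine) :
    BFacts (T.Y I).bsys kapR (1 / 2 ^ 16) (1 / 2 ^ 17) (1 / 64) :=
  H797.bfacts (T.rfacts I)

theorem Y_own (I : EndOfLine) :
    (T.Y I).own = H604.wKe (Fin (nLab A0)) (Fin 12) (Fin 8) 75 (.inl ()) := rfl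

theorem Y_nb (I : EndOfLine) : (T.Y I).nb = nJ I * (cG (lqJ I) * nLab A0) := rfl

theorem Y_L (I : EndOfLine) : (T.Y I).L = (nJ I + (T.Pg I).HL) * (kitJ I).KL := rfl

theorem Y_wr (I : EndOfLine) (i : Fin (ocK A0 75)) :
    (T.Y I).wr i = (ocW A0 (lqJ I) (dJ I) (th (leJ I)) 75).wr i := rfl

end TopJ

end Vale.Agent.P330.H155
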