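import Vale.Agent.P330.H155.StJ
import Vale.Agent.P330.W.H912.Fam
import Vale.Agent.P330.W.H912.Wsym
import Vale.Agent.P330.W.H847.SzCalc
import Vale.Agent.P330.H247.Num

/-!
# The input of `SIn.toSFam`

`SiteJ T α`: programs in polynomial time which describe the register systems `T.Y I`, the public
data of the sites, and the reading of the solution. `SiteJ.sin`: the structure `W.H912.SIn`;
`SiteJ.upper`: the family of block systems on words exists.
-/

set_option autoImplicit false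
set_option linter.unusedSectionVars false

namespace Vale.Agent.P330.H155

open Finset H16 H797 Q H743
open Vale.Agent.Lib.PolyTime
open Vale.Agent.P330.H933 (Fl th eF)
open Vale.Agent.P330.H604 (cG ocK ocW)
open Vale.Agent.P330.H838 (QLin QLog len)
open Vale.Agent.P330.H840 (A0 lqJ dJ leJ kapJ mpJ degJ)
open Vale.Agent.P330.H985 (cS)
open W (Abs)
open W.H912 (WPrg SIn symCode toLB LB)
open H847 (SB)

/-- The description of the register systems by programs. -/
structure SiteJ (T : TopJ) (α : Type) [Enc α] where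
  P : WPrg α
  hP : P.PTs ∅
  pubT : EndOfLine × ℕ → α
  pubT_pt : PT ∅ pubT
  rep : ∀ I, P.Rep (T.Y I) fun h => pubT (I, (numJ I h : ℕ))
  HL_pt : PT ∅ fun I => (T.Pg I).HL
  HL_qlog : QLog fun I => (T.Pg I).HL
  sb : SB fun (I : EndOfLine) (h : OmJ I) => pubT (I, (numJ I h : ℕ))
  /-- the solution, from the list of the blocks of all sites -/
  solT : EndOfLine × List (LB Word) → Word
  solT_pt : PT ∅ solT
  solT_ok : ∀ I (w : (T.Y I).Cf), (T.Y I).bsys.Valid w →
    (¬ (T.Y I).bsys.Valid ((T.Y I).bsys.step false w) ∨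
      (w ≠ (T.Y I).bsys.w0 ∧ ¬ (T.Y I).bsys.Valid ((T.Y I).bsys.step true w))) →
    I.IsSolution (solT (I, List.ofFn fun j =>
      toLB (cS (leJ I)) ((T.Y I).bsys.word w ((numJ I).symm j))))

/-- The length of the symbols. -/
noncomputable def slJ (I : EndOfLine) : ℕ := nLab A0 * eF (leJ I)

theorem pt_slJ : PT ∅ slJ := PT.mul (PT.const _) lparJ.eF

theorem pbd_slJ : PBd slJ := (PBd.const _).mul lparJ.eFbd

theorem qlog_slJ : QLog slJ := (QLog.const _).mul H247.qlog_eF_leJ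

/-- The wires on numbers. -/
noncomputable def wrNJ : Fin (ocK A0 75) → EndOfLine × ℕ → ℕ :=
  H604.wrNS H840.C1 H840.c0 H840.hC A0 (fun I => Fl (leJ I)) (fun I => th (leJ I)) 75

theorem pt_wrNJ (i : Fin (ocK A0 75)) : PT ∅ (wrNJ i) :=
  H604.wrNS_pt H840.C1 H840.c0 H840.hC A0 (fun I => Fl (leJ I)) (fun I => th (leJ I)) 75 i

theorem wrNJ_eq (T : TopJ) (i : Fin (ocK A0 75)) (I : EndOfLine) (h : OmJ I) :
    wrNJ i (I, (numJ I h : ℕ)) = numJ I ((T.Y I).wr i h) :=
  H604.wrNS_eq H840.C1 H840.c0 H840.hC A0 (fun I => Fl (leJ I)) (fun I => th (leJ I)) 75 i I h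

/-- The letters of the expander. -/
noncomputable def sOJ (I : EndOfLine) (j : Fin 40) : OmJ I ≃ OmJ I :=
  H604.sOS H840.C1 H840.c0 I j

theorem gapJ (I : EndOfLine) : H855.Gap (sOJ I) H143.rho0 :=
  H604.gap_sOS H840.C1 H840.c0 H840.hC I

/-- The letters on numbers. -/
noncomputable def sONJ (j : Fin 40) : EndOfLine × ℕ → ℕ :=
  H604.sONS H840.C1 H840.c0 H840.hC j

namespace SiteJ

variable {T : TopJ} {α : Type} [Enc α] (G : SiteJ T α)

include G

theorem pt_L : PT ∅ fun I => (T.Y I).L :=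
  PT.mul (PT.add pt_nJ G.HL_pt) (H247.pt_KLJ PT.id)

theorem qlog_L : QLog fun I => (T.Y I).L :=
  (H247.qlog_nJ.add G.HL_qlog).mul H247.qlog_KLJ

theorem qlog_nr : QLog fun I => (T.Y I).nb + (T.Y I).L :=
  (H247.qlog_nJ.mul H247.qlog_qJ).add G.qlog_L

/-- The start blocks. -/
theorem exists_st : ∃ st : EndOfLine × ℕ → LB Word, PT ∅ st ∧ ∀ I, True → ∀ h,
    st (I, (numJ I h : ℕ)) = toLB (cS (leJ I)) ((T.Y I).bsys.word (T.Y I).bsys.w0 h) :=
  H659.exists_st (Y := T.Y) G.hP.prg (c := fun I => symCode (nLab A0) (leJ I))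
    (rp := fun I => cS (leJ I)) (good := fun _ => True) ((PT.const true).congr fun _ => by simp)
    (fun I _ => (G.rep I).rep) G.pubT_pt numJ (H604.nS_pt H840.C1 H840.c0 H840.hC)
    (H604.nS_bd H840.C1 H840.c0 H840.hC) (fun _ _ => rfl) pt_wrNJ
    (fun i I h => wrNJ_eq T i I h) G.pt_L (W.H912.qlin_pbd G.qlog_L.qlin)
    (pbd_nJ.mul pbd_qJ) ⟨fun I => slJ I * (2 * 1 + 1), pbd_slJ.mul (PBd.const _), fun I s =>
        (esize_list_le (B := 1) fun x _ => (esize_bool x).le).trans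
          (Nat.mul_le_mul_right _ (H985.length_cS _ _).le)⟩ (fun I _ => T.rfacts I) pt_bsJ fun I _ h => T.bsJ_eq I h

/-- The length of the blocks. -/
theorem exists_mJ : ∃ m : EndOfLine → ℕ, PT ∅ m ∧ QLog m ∧ (∀ I, 3 ≤ m I) ∧
    (∀ I, W.H912.blen ((T.Y I).nb + (T.Y I).L) (slJ I) ≤ m I) ∧
    ∀ I (h : OmJ I), 2 * esize (G.pubT (I, (numJ I h : ℕ))) + 1 ≤ m I :=
  H847.exists_m G.qlog_nr qlog_slJ G.sb

/-- **The input of `SIn.toSFam`.** -/
noncomputable def sin : SIn α Word where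
  K := ocK A0 75
  own := H604.wKe (Fin (nLab A0)) (Fin 12) (Fin 8) 75 (.inl ())
  κ := kapR
  κ_pos := TopJ.kapR_pos
  θ := 1 / 2 ^ 16
  θ_pos := by positivity
  ρ₁ := 1 / 2 ^ 17
  ρ₁_pos := by positivity
  c₀ := 1 / 64
  c₀_nonneg := by positivity
  c₀_lt := by norm_num
  nO := 40
  nO_pos := by norm_num
  g := H143.rho0
  g_nonneg := H143.rho0_nonneg
  g_lt := H143.rho0_lt
  N₀ := 0
  n := nSJ
  n_pos := H604.nS_pos H840.C1 H840.c0 H840.hC
  Om := OmJ
  fOm I := inferInstance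
  num := numJ
  m := G.exists_mJ.choose
  m_ge := G.exists_mJ.choose_spec.2.2.1
  S := SJ
  X := XJ
  Y := T.Y
  own_eq _ := rfl
  facts I _ := T.bfacts I
  sO := sOJ
  gap I _ := gapJ I
  n_qlin := H604.nS_qlin H840.C1 H840.c0 H840.hC
  m_qlog := G.exists_mJ.choose_spec.2.1
  n_pt := H604.nS_pt H840.C1 H840.c0 H840.hC
  m_pt := G.exists_mJ.choose_spec.1
  wrN := wrNJ
  wrN_pt := pt_wrNJ
  wrN_eq i I h := wrNJ_eq T i I h
  sON := sONJ
  sON_pt j := H604.sONS_pt H840.C1 H840.c0 H840.hC j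
  sON_eq j I h := H604.sONS_eq H840.C1 H840.c0 H840.hC j I h
  P := G.P.prg
  hP := G.hP.prg
  sl := slJ
  c I := symCode (nLab A0) (leJ I)
  rp I := cS (leJ I)
  pubA I h := G.pubT (I, (numJ I h : ℕ))
  rep I _ := (G.rep I).rep
  pubT := G.pubT
  pubT_pt := G.pubT_pt
  pubT_eq _ _ := rfl
  m_blk I _ := G.exists_mJ.choose_spec.2.2.2.1 I
  m_pub I h := G.exists_mJ.choose_spec.2.2.2.2 I h
  st := G.exists_st.choose
  st_pt := G.exists_st.choose_spec.1
  st_eq I _ h := G.exists_st.choose_spec.2 I trivial h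
  solT := G.solT
  solT_pt := G.solT_pt
  solT_ok I _ w hw hw' := G.solT_ok I w hw hw'

/-- **The upper half.** -/
theorem upper : H475.UpperStmt := ⟨G.sin.toSFam⟩

end SiteJ

end Vale.Agent.P330.H155
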