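import Vale.Agent.P330.H155.RSJ
import Vale.Agent.P330.W.H604.SNum
import Vale.Agent.P330.H933.PubE
import Vale.Agent.P330.H633.MParI
import Vale.Agent.P330.W.H659.Base

/-!
# Polynomial time data of the family of register systems

Numbers of the sites, parameters of the machines, hard-wired contents, the words of the outer code
and the base rows of the start, for all instances of End-of-Line.
-/

set_option autoImplicit false
set_option linter.unusedSectionVars false

namespace Vale.Agent.P330.H155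

open Finset H16 H797 Q H743
open Vale.Agent.Lib.PolyTime
open Vale.Agent.P330.H933 (Fl th eF rth pubF LPar MPar RPar NPar FT CT cfn)
open Vale.Agent.P330.H604 (cG gE ocK ocW GPar JNum GT)
open Vale.Agent.P330.H675 (JJ JPar jn jv jco jnum)
open Vale.Agent.P330.H840 (oc tg12 A0 lqJ dJ leJ kapJ mpJ degJ ohypJ)
open Vale.Agent.P330.H659 (EPT baseL)
open Vale.Agent.P330.H985 (cS)
open W (Abs)

/-! ### Parameters -/

theorem jparJ : JPar ∅ lqJ dJ := H604.jparI H840.C1 H840.c0 H840.hC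

theorem gparJ : GPar ∅ lqJ := jparJ.toGPar

theorem lparJ : LPar ∅ leJ := H247.lpar_leI PT.id

/-- The numbering of `J` for all instances. -/
noncomputable def jNJ : JNum ∅ lqJ (fun I => JJ (Fl (lqJ I)) (dJ I)) :=
  H604.jN H840.C1 H840.c0 H840.hC

/-- The number of the sites. -/
noncomputable def nSJ (I : EndOfLine) : ℕ := H604.nS H840.C1 H840.c0 H840.hC I

/-- The numbers of the sites. -/
noncomputable def numJ (I : EndOfLine) : OmJ I ≃ Fin (nSJ I) :=
  H604.numS H840.C1 H840.c0 H840.hC I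

theorem pt_kapJ : PT ∅ kapJ := jparJ.PT_kap

theorem pbd_two_pow_kapJ : PBd fun I => 2 ^ kapJ I := jparJ.pbd

theorem pbd_kapJ : PBd kapJ := jparJ.kbd

theorem nparJ : NPar ∅ kapJ := ⟨pt_kapJ, pbd_kapJ⟩

/-- The machines. -/
theorem mparJ : MPar ∅ mpJ :=
  H633.mpar_mpI PT.id (H633.PT_kI PT.id) (H633.PBd_two_pow_kI (A := ∅) PT.id)
    (H633.PT_aI PT.id) (H633.PBd_two_pow_aI (A := ∅) PT.id) pt_kapJ pbd_two_pow_kapJ

/-- The Reed-Solomon systems. -/
theorem rparJ : RPar ∅ (fun I => (mpJ I).κ) leJ rJ :=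
  RPar.rth lparJ nparJ fun I => (H840.kapJ_lt I).le

theorem jco_jvJ (I : EndOfLine) (n : ℕ) :
    jco (lqJ I) (dJ I) (degJ I) (jv (lqJ I) (dJ I) n) = pt (kapJ I) n := by
  funext j
  rw [H675.jco_jv]
  rfl

/-- The base contents of the start. -/
theorem ct_start : CT jNJ leJ (fun p : EndOfLine × ℕ => p.1) (fun p x =>
    cfn (mpJ p.1) ((mpJ p.1).cont (rJ p.1) (Computes.s0 (mpJ p.1))) p.2
      (jco (lqJ p.1) (dJ p.1) (degJ p.1) x)) :=
  H933.CT_start (N := jNJ) (psi := fun I x => jco (lqJ I) (dJ I) (degJ I) x) mparJ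
    H840.mpJ_good rparJ (fun _ => rfl) fun I n _ => jco_jvJ I n

/-- The hard-wired contents. -/
theorem ct_pub : CT jNJ leJ (fun p : EndOfLine × ℕ => p.1) (fun p x =>
    pubJ p.1 p.2 (jco (lqJ p.1) (dJ p.1) (degJ p.1) x)) := by
  have h := H933.CT_pub (N := jNJ) (psi := fun I x => jco (lqJ I) (dJ I) (degJ I) x) mparJ
    H840.mpJ_good rparJ (fun _ => rfl) fun I n _ => jco_jvJ I n
  exact h

/-- The words of the outer code. -/
theorem eptJ : EPT jNJ leJ fun I => oc A0 (th (lqJ I)) (dJ I) (th (leJ I)) :=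
  H659.ept_cdOf (N := jNJ) gparJ lparJ
    (H604.JT_bet jparJ A0 fun I => th (leJ I)) (H604.GT_eta jparJ A0 fun I => th (leJ I))
    (FT.th lparJ) (A0.info false) (A0.card_B false) (A0.info true) (A0.card_B true) A0.disj
    fun I => H840.oc_good (ohypJ I)

/-! ### Numbers of registers -/

theorem pt_nJ : PT ∅ nJ := by
  unfold nJ nB
  exact PT.add (PT.add mparJ.k (PT.mul (PT.const 2) mparJ.L)) (PT.const 6)

theorem pbd_nJ : PBd nJ := by
  unfold nJ nB
  exact ((mparJ.kbd.mono fun _ => Nat.lt_two_pow_self.le).add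
    ((PBd.const 2).mul mparJ.Lbd)).add (PBd.const 6)

/-- The number of the registers of a bundle. -/
noncomputable def qJ (I : EndOfLine) : ℕ := cG (lqJ I) * nLab A0

theorem pt_qJ : PT ∅ qJ := PT.mul (H604.PT_cG gparJ) (PT.const _)

theorem pbd_qJ : PBd qJ := (H604.PBd_cG gparJ).mul (PBd.const _)

/-! ### The base rows of the start -/

/-- The base rows of the start, on numbers. -/
noncomputable def bsJ (p : EndOfLine × ℕ) : List Word :=
  baseL (oc A0 (th (lqJ p.1)) (dJ p.1) (th (leJ p.1))) (nJ p.1) (qJ p.1)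
    (fun i x => cfn (mpJ p.1) ((mpJ p.1).cont (rJ p.1) (Computes.s0 (mpJ p.1))) i
      (jco (lqJ p.1) (dJ p.1) (degJ p.1) x)) (jNJ.sv p.1 p.2)

theorem pt_bsJ : PT ∅ bsJ :=
  H659.PT.baseL (N := jNJ) (S := fun I => oc A0 (th (lqJ I)) (dJ I) (th (leJ I)))
    (x := fun I i x => cfn (mpJ I) ((mpJ I).cont (rJ I) (Computes.s0 (mpJ I))) i
      (jco (lqJ I) (dJ I) (degJ I) x)) gparJ lparJ eptJ pt_nJ pbd_nJ pt_qJ pbd_qJ ct_start

theorem sv_numJ (I : EndOfLine) (h : OmJ I) : jNJ.sv I (numJ I h : ℕ) = h := jNJ.sv_sn I h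

namespace TopJ

variable (T : TopJ)

/-- The start is the state with full banks. -/
theorem w0_eq (I : EndOfLine) (i : Fin (nJ I)) (x : JJ (Fl (lqJ I)) (dJ I)) :
    (T.Y I).D.w0 i x = cfn (mpJ I) ((mpJ I).cont (rJ I) (Computes.s0 (mpJ I))) i
      (jco (lqJ I) (dJ I) (degJ I) x) :=
  congrFun (H933.enc_eq_cfn (mpJ I) ((mpJ I).cont (rJ I) (Computes.s0 (mpJ I))) i) _

/-- **The base rows of the start.** -/
theorem bsJ_eq (I : EndOfLine) (h : OmJ I) :
    bsJ (I, (numJ I h : ℕ)) = ((T.Y I).stk (T.Y I).D.w0 (T.Y I).nb h).map (cS (leJ I)) := by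
  unfold bsJ
  simp only
  rw [sv_numJ]
  exact H659.baseL_stk (R := T.rs I) (n := nJ I) (T.good I) rfl
    (fun v b => (H675.enG_symm _ _ v b).trans (by
      rw [Nat.add_comm, Nat.mul_comm]
      rfl))
    (fun i => funext fun x => (T.w0_eq I i x).symm) h

end TopJ

end Vale.Agent.P330.H155
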