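import Vale.Agent.P330.H155.Bridge
import Vale.Agent.P330.H155.Mach
import Vale.Agent.P330.H743.Eolc
import Vale.Agent.P330.H244.Stat2

/-!
# From the machine program to the conditions `ProgOK` and `MachOK`

`TopOK M R pub Q enc`: what the content program `Q` of the machine `M` has to satisfy, over
`V2 M.κ` and `H16.run` only.  `TopOK.dynJ`: the dynamics of the tuples of contents over `J`;
`TopOK.machOK`, `TopOK.progOK`: the conditions of the register system.
-/

set_option autoImplicit false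

namespace Vale.Agent.P330.H155

open Finset H16 H797 Q H743

section Top

variable {F : Type} [Field F]

/-- The contents of the program `l` for the base contents `x`. -/
def hv {κ : ℕ} (pub : ℕ → Ct κ F) (l : List (Ins F)) {n : ℕ} (x : Fin n → Ct κ F) (i : ℕ) :
    Ct κ F := (run pub l (List.ofFn x)).getD i 0

/-- The numbers of translations and coordinates in an instruction are less than `κ`. -/
def InsK (κ : ℕ) : Ins F → Prop
  | .tr j _ => j < κ
  | .mx j _ => j < κ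
  | _ => True

/-- The conditions on the content program of the machine. -/
structure TopOK (M : MP) (R : RSys M.κ F) (pub : ℕ → Ct M.κ F) {n : ℕ} (P : HProg F)
    (enc : Cont M.κ F → Fin n → Ct M.κ F) : Prop where
  idx : ∀ i ∈ P.prog, InsK M.κ i
  ok : ∀ x : Fin n → Ct M.κ F, runOK pub P.prog (List.ofFn x)
  eqs_lt : ∀ p ∈ P.eqs, p.1 < n + P.HL ∧ p.2 < n + P.HL
  prods_lt : ∀ p ∈ P.prods, p.1 < n + P.HL ∧ p.2.1 < n + P.HL ∧ p.2.2 < n + P.HL
  out_lt : ∀ z, ∀ i < n, P.out z i < n + P.HL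
  /-- the assertions imply the static checks -/
  sound : ∀ x : Fin n → Ct M.κ F,
    (∀ p ∈ P.eqs, hv pub P.prog x p.1 = hv pub P.prog x p.2) →
    (∀ p ∈ P.prods, MP.Near (hv pub P.prog x p.1)
      (fun y => hv pub P.prog x p.2.1 y * hv pub P.prog x p.2.2 y)) →
    ∃ c, M.Chk R c ∧ x = enc c
  /-- the static checks with exact products imply the assertions -/
  complete : ∀ c, M.Chk R c → (∀ b, ∀ s < M.L, c.P b s = M.prodP R (c.w b) (c.P b) s) →
    (∀ b, c.Q b = M.prodQ R (c.w b)) →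
    (∀ p ∈ P.eqs, hv pub P.prog (enc c) p.1 = hv pub P.prog (enc c) p.2) ∧
    ∀ p ∈ P.prods, ∀ y, hv pub P.prog (enc c) p.1 y =
      hv pub P.prog (enc c) p.2.1 y * hv pub P.prog (enc c) p.2.2 y
  /-- the outputs are the next contents -/
  step : ∀ z c, M.ValidC R c → ∀ i : Fin n,
    hv pub P.prog (enc c) (P.out z i) = enc (M.stepC R z c) i
  inj : ∀ c c' : Cont M.κ F, c.t ≤ 2 ^ M.k → c'.t ≤ 2 ^ M.k →
    (∀ b s, M.L ≤ s → c.P b s = 0) → (∀ b s, M.L ≤ s → c'.P b s = 0) → enc c = enc c' → c = c'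

/-- The number of the step is bounded and the unused products vanish. -/
theorem stepC_bd {M : MP} {R : RSys M.κ F} {c : Cont M.κ F} (hc : M.Chk R c) (z : Bool) :
    (M.stepC R z c).t ≤ 2 ^ M.k ∧ ∀ b s, M.L ≤ s → (M.stepC R z c).P b s = 0 := by
  have ht := hc.t_le
  have hP := hc.P_zero
  have hadd : ∀ b' a v b s, M.L ≤ s → (M.addS R c b' a v).P b s = 0 := by
    intro b' a v b s hs
    show (if b = b' ∧ s < M.L then _ else c.P b s) = 0
    rw [if_neg (by omega)]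
    exact hP b s hs
  unfold MP.stepC
  split_ifs with h1 h2 h3
  · exact ⟨ht, hP⟩
  · exact ⟨by show c.t + 1 ≤ _; omega, fun b s hs => hadd _ _ _ b s hs⟩
  · exact ⟨ht, fun b s hs => hP _ s hs⟩
  · exact ⟨by show c.t - 1 ≤ _; omega, fun b s hs => hadd _ _ _ b s hs⟩

end Top

section

variable {J Γ B F iJ iG : Type} [AddCommGroup J] [Fintype J] [Group Γ] [Fintype Γ]
  [DistribMulAction Γ J] [Field F] {n : ℕ}
  {M : MP} {R : RSys M.κ F} {pub : ℕ → Ct M.κ F} {P : HProg F}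
  {enc : Cont M.κ F → Fin n → Ct M.κ F} {g : Gen J Γ F iJ iG}

/-- Contents over `V2 κ` as contents over `J`. -/
def toJ {κ : ℕ} (ψ : J ≃+ V2 κ) (x : Fin n → Ct κ F) : Fin n → J → F := fun i y => x i (ψ y)

/-- Contents over `J` as contents over `V2 κ`. -/
def toV {κ : ℕ} (ψ : J ≃+ V2 κ) (x : Fin n → J → F) : Fin n → Ct κ F :=
  fun i y => x i (ψ.symm y)

omit [Fintype J] [Field F] in
theorem toV_toJ {κ : ℕ} (ψ : J ≃+ V2 κ) (x : Fin n → Ct κ F) : toV ψ (toJ ψ x) = x := by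
  funext i y; simp [toV, toJ]

omit [Fintype J] [Field F] in
theorem toJ_toV {κ : ℕ} (ψ : J ≃+ V2 κ) (x : Fin n → J → F) : toJ ψ (toV ψ x) = x := by
  funext i y; simp [toV, toJ]

omit [Group Γ] [Fintype Γ] [DistribMulAction Γ J] in
theorem hval_hv (ψ : J ≃+ V2 M.κ) (hg : g.Via pub ψ) (hQ : ∀ i ∈ P.prog, InsOK g i)
    (x : Fin n → J → F) {i : ℕ} (hi : i < n + P.HL) (y : J) :
    hval g P x i y = hv pub P.prog (toV ψ x) i (ψ y) :=
  hval_run' hg P hQ x hi y

omit [Group Γ] [Fintype Γ] [DistribMulAction Γ J] in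
theorem hval_hv_symm (ψ : J ≃+ V2 M.κ) (hg : g.Via pub ψ) (hQ : ∀ i ∈ P.prog, InsOK g i)
    (x : Fin n → J → F) {i : ℕ} (hi : i < n + P.HL) (y : V2 M.κ) :
    hv pub P.prog (toV ψ x) i y = hval g P x i (ψ.symm y) := by
  rw [hval_hv ψ hg hQ x hi, AddEquiv.apply_symm_apply]

omit [Field F] in
/-- A bound on the fraction of the exceptions gives `Near`. -/
theorem near_of_fr {κ : ℕ} (ψ : J ≃+ V2 κ) (u v : Ct κ F)
    (h : fr (fun y : J => u (ψ y) ≠ v (ψ y)) ≤ 1 / 10) : MP.Near u v := by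
  classical
  unfold MP.Near
  unfold fr at h
  have h1 : (univ.filter fun x : V2 κ => u x ≠ v x).card =
      (univ.filter fun y : J => u (ψ y) ≠ v (ψ y)).card := by
    refine (Finset.card_bij (fun y _ => ψ y) ?_ ?_ ?_).symm
    · intro y hy; simpa using hy
    · intro a _ b _ hab; exact ψ.injective hab
    · intro x hx
      exact ⟨ψ.symm x, by simpa using hx, by simp⟩
  have h2 : Fintype.card J = 2 ^ κ := by
    rw [Fintype.card_congr ψ.toEquiv]
    simp [V2, ZMod.card]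
  rw [h2] at h
  have h3 : (0 : ℝ) < ((2 ^ κ : ℕ) : ℝ) := by positivity
  rw [div_le_div_iff₀ h3 (by norm_num)] at h
  have h4 : (10 * (univ.filter fun x : V2 κ => u x ≠ v x).card : ℝ) ≤ ((2 ^ κ : ℕ) : ℝ) := by
    have : ((univ.filter fun x : V2 κ => u x ≠ v x).card : ℝ) =
        (@Finset.filter J (fun y => u (ψ y) ≠ v (ψ y)) (fun _ => Classical.propDecidable _)
          univ).card := by
      rw [h1]
      congr 2
      ext y
      simp
    rw [this]
    linarith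
  have h5 : 10 * (univ.filter fun x : V2 κ => u x ≠ v x).card ≤ 2 ^ κ := by exact_mod_cast h4
  convert h5

/-- The step on the tuples over `J`. -/
def stpJ (g : Gen J Γ F iJ iG) (P : HProg F) (z : Bool) (x : Fin n → J → F) : Fin n → J → F :=
  fun i => hval g P x (P.out z i)

namespace TopOK

variable (hT : TopOK M R pub P enc)

include hT

omit [AddCommGroup J] [Fintype J] [Group Γ] [Fintype Γ] [DistribMulAction Γ J] in
theorem insOK (hE : M.κ ≤ g.nE) (hP : M.κ ≤ g.nP) : ∀ i ∈ P.prog, InsOK g i := by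
  intro i hi
  have := hT.idx i hi
  cases i <;> simp only [InsK, InsOK] at this ⊢ <;> omega

theorem enc_step_inj [CharP F 2] (hM : M.Good) (z : Bool) (c c' : Cont M.κ F)
    (hc : M.ValidC R c) (hc' : M.ValidC R c') (h : enc (M.stepC R z c) = enc c') :
    M.stepC R z c = c' := by
  have h1 := (H16.statC hM R c hc).1
  have h2 := (H16.statC hM R c' hc').1
  obtain ⟨h3, h4⟩ := stepC_bd h1 z
  exact hT.inj _ _ h3 h2.t_le h4 h2.P_zero h

omit [Group Γ] [Fintype Γ] [DistribMulAction Γ J] in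
theorem stp_enc (ψ : J ≃+ V2 M.κ) (hg : g.Via pub ψ) (hE : M.κ ≤ g.nE) (hP : M.κ ≤ g.nP)
    (z : Bool) (c : Cont M.κ F) (hc : M.ValidC R c) :
    stpJ g P z (toJ ψ (enc c)) = toJ ψ (enc (M.stepC R z c)) := by
  funext i y
  unfold stpJ
  rw [hval_hv ψ hg (hT.insOK hE hP) _ (hT.out_lt z i i.isLt), toV_toJ, hT.step z c hc i]
  rfl

/-- The dynamics of the tuples over `J`. -/
def dynJ [CharP F 2] (ψ : J ≃+ V2 M.κ) (hg : g.Via pub ψ) (hE : M.κ ≤ g.nE) (hP : M.κ ≤ g.nP)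
    (hM : M.Good) {I : EndOfLine} (hI : Computes M I) : Dyn (Fin n → J → F) :=
  mapDyn (hI.dyn R hM) (fun c => toJ ψ (enc c)) (stpJ g P)
    (fun z c hc => hT.stp_enc ψ hg hE hP z c hc)
    (fun z c c' hc hc' h => hT.enc_step_inj hM z c c' hc hc' (by
      have := congrArg (toV ψ) h
      rwa [toV_toJ, toV_toJ] at this))

omit [Fintype Γ] in
theorem progOK (RR : RS J Γ B F iJ iG n) (h1 : RR.g = g) (h2 : RR.Q = P) (ψ : J ≃+ V2 M.κ)
    (hg : g.Via pub ψ) (hE : M.κ ≤ g.nE) (hP : M.κ ≤ g.nP) : RR.ProgOK := by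
  subst h1 h2
  exact ⟨hT.insOK hE hP, fun x k c i hk hi =>
    cst_of_runOK hg _ (hT.insOK hE hP) x (hT.ok _) k c i hk hi⟩

omit [Fintype Γ] in
/-- **The conditions on the dynamics.** -/
theorem machOK [CharP F 2] (RR : RS J Γ B F iJ iG n) (h1 : RR.g = g) (h2 : RR.Q = P)
    (ψ : J ≃+ V2 M.κ) (hg : g.Via pub ψ) (hE : M.κ ≤ g.nE) (hP : M.κ ≤ g.nP)
    (hM : M.Good) {I : EndOfLine} (hI : Computes M I) {κV : ℝ} (hκ : κV ≤ 1 / 10) :
    RR.MachOK (hT.dynJ ψ hg hE hP hM hI) κV := by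
  subst h1 h2
  have hQ := hT.insOK hE hP
  refine ⟨hT.eqs_lt, hT.prods_lt, hT.out_lt, ?_, ?_, ?_, ?_⟩
  · rintro x ⟨c, hc, rfl⟩ p hp
    obtain ⟨h3, h4⟩ := hT.eqs_lt p hp
    obtain ⟨hc1, hc2, hc3⟩ := H16.statC hM R c hc
    funext y
    rw [hval_hv ψ hg hQ _ h3, hval_hv ψ hg hQ _ h4, toV_toJ,
      (hT.complete c hc1 hc2 hc3).1 p hp]
  · rintro x ⟨c, hc, rfl⟩ p hp y
    obtain ⟨h3, h4, h5⟩ := hT.prods_lt p hp
    obtain ⟨hc1, hc2, hc3⟩ := H16.statC hM R c hc
    rw [hval_hv ψ hg hQ _ h3, hval_hv ψ hg hQ _ h4, hval_hv ψ hg hQ _ h5, toV_toJ,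
      (hT.complete c hc1 hc2 hc3).2 p hp]
  · intro x hx1 hx2
    obtain ⟨c, hc, hx⟩ := hT.sound (toV ψ x) (fun p hp => by
        obtain ⟨h3, h4⟩ := hT.eqs_lt p hp
        funext y
        rw [hval_hv_symm ψ hg hQ x h3, hval_hv_symm ψ hg hQ x h4, hx1 p hp])
      (fun p hp => by
        obtain ⟨h3, h4, h5⟩ := hT.prods_lt p hp
        apply near_of_fr ψ
        refine le_trans (le_of_eq ?_) ((hx2 p hp).trans hκ)
        congr 1
        funext y
        rw [← hval_hv ψ hg hQ x h3, ← hval_hv ψ hg hQ x h4, ← hval_hv ψ hg hQ x h5])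
    refine ⟨c, H16.stat hM R c hc, ?_⟩
    show x = toJ ψ (enc c)
    rw [← hx, toJ_toV]
  · intro z x _ i
    rfl

end TopOK

end

end Vale.Agent.P330.H155
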